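import Vale.Agent.P221X.NM.Main

/-!
# P221, non-membership: shifts of the data, thick subcategories and exact functors
-/

open CategoryTheory Limits Pretriangulated MulOpposite

set_option linter.unusedSectionVars false

universe v u w

namespace Vale.Agent.P221X.NM

variable {C : Type u} [Category.{v} C] [Preadditive C] [HasShift C ℤ] [HasZeroObject C]
  [∀ n : ℤ, (shiftFunctor C n).Additive] [Pretriangulated C] {Γ : Type w} [Ring Γ]

theorem Thick.iso {B X Y : C} (h : Thick B X) (e : X ≅ Y) : Thick B Y :=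
  .retract e.inv e.hom e.inv_hom_id h

theorem Thick.trans {B B' X : C} (h : Thick B X) (h' : Thick B' B) : Thick B' X := by
  induction h with
  | base => exact h'
  | zero h => exact .zero h
  | susp k _ ih => exact .susp k ih
  | cof hT _ _ ih ih' => exact .cof hT ih ih'
  | retract i r hir _ ih => exact .retract i r hir ih

theorem Thick.obj₃ {B : C} {T : Triangle C} (hT : T ∈ distTriang C) (h₁ : Thick B T.obj₁)
    (h₂ : Thick B T.obj₂) : Thick B T.obj₃ :=
  .cof (f := T.mor₁) (g := T.mor₂) (h := T.mor₃) hT h₁ h₂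

theorem Thick.obj₂ {B : C} {T : Triangle C} (hT : T ∈ distTriang C) (h₁ : Thick B T.obj₁)
    (h₃ : Thick B T.obj₃) : Thick B T.obj₂ :=
  Thick.obj₃ (inv_rot_of_distTriang _ hT) (h₃.susp (-1)) h₁

theorem Thick.obj₁ {B : C} {T : Triangle C} (hT : T ∈ distTriang C) (h₂ : Thick B T.obj₂)
    (h₃ : Thick B T.obj₃) : Thick B T.obj₁ :=
  Thick.obj₂ (inv_rot_of_distTriang _ hT) (h₃.susp (-1)) h₂

theorem Thick.map (F : C ⥤ C) [F.CommShift ℤ] [F.IsTriangulated] {B X : C} (h : Thick B X) :
    Thick (F.obj B) (F.obj X) := by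
  induction h with
  | base => exact .base
  | @zero X h => exact .zero (by rw [← F.map_id, h, F.map_zero])
  | @susp k X _ ih => exact (ih.susp k).iso ((F.commShiftIso k).app X).symm
  | cof hT _ _ ih ih' => exact Thick.obj₃ (F.map_distinguished _ hT) ih ih'
  | retract i r hir _ ih =>
    exact .retract (F.map i) (F.map r) (by rw [← F.map_comp, hir, F.map_id]) ih

/-- If `f : X ⟶ X` is nilpotent, then `X` is built from the cofibre of `f`. -/
theorem thick_of_nilpotent [IsTriangulated C] {X Y : C} {f : End X} {g : X ⟶ Y}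
    {h : Y ⟶ X⟦(1 : ℤ)⟧} (hT : Triangle.mk f g h ∈ distTriang C) {n : ℕ} (hn : f ^ n = 0) :
    Thick Y X := by
  have key : ∀ (m : ℕ) (Z : C) (g' : X ⟶ Z) (h' : Z ⟶ X⟦(1 : ℤ)⟧),
      (Triangle.mk (f ^ m : End X) g' h' ∈ distTriang C) → Thick Y Z := by
    intro m
    induction m with
    | zero =>
      intro Z g' h' hT'
      have : IsIso (f ^ 0 : End X) := by rw [pow_zero]; exact IsIso.id X
      exact .zero ((IsZero.iff_id_eq_zero _).1 ((Triangle.isZero₃_iff_isIso₁ _ hT').2 this))
    | succ m ih =>
      intro Z g' h' hT'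
      obtain ⟨W, a, b, hW⟩ := distinguished_cocone_triangle (f ^ m : End X)
      have e : (f ^ m : End X) ≫ f = (f ^ (m + 1) : End X) := by rw [pow_succ']; rfl
      exact Thick.obj₂ (Triangulated.someOctahedron e hW hT hT').mem (ih W a b hW) .base
  obtain ⟨W, a, b, hW⟩ := distinguished_cocone_triangle (f ^ n : End X)
  obtain ⟨r, hr⟩ : ∃ r : W ⟶ X, 𝟙 X = a ≫ r :=
    Triangle.yoneda_exact₂ _ hW (𝟙 X) (by
      change (f ^ n : End X) ≫ 𝟙 X = 0
      rw [hn]; exact zero_comp)
  exact .retract a r hr.symm (key n W a b hW)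

/-- The data transported along a fully faithful additive functor commuting with the shift. -/
noncomputable def TriData.shift (D : TriData C Γ) (n : ℤ) : TriData C Γ where
  P := D.P⟦n⟧
  P' := D.P'⟦n⟧
  lam a := (D.lam a)⟦n⟧'
  lam_mul a b := by rw [D.lam_mul, Functor.map_comp]
  lam_zero := by rw [D.lam_zero, Functor.map_zero]
  lam' a := (D.lam' a)⟦n⟧'
  lam'_one := by rw [D.lam'_one, CategoryTheory.Functor.map_id]
  lam'_mul a b := by rw [D.lam'_mul, Functor.map_comp]
  lam'_add a b := by rw [D.lam'_add, Functor.map_add]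
  eps := D.eps.comp
    { toFun := fun y => (shiftFunctor C n).preimage y
      map_zero' := (shiftFunctor C n).map_injective (by simp)
      map_add' := fun x y => (shiftFunctor C n).map_injective (by simp) }
  eps_left y a := by
    obtain ⟨y, rfl⟩ := (shiftFunctor C n).map_surjective y
    simp [← Functor.map_comp, D.eps_left]
  eps_right y a := by
    obtain ⟨y, rfl⟩ := (shiftFunctor C n).map_surjective y
    simp [← Functor.map_comp, D.eps_right]
  van x := by
    obtain ⟨y, hy⟩ := (shiftFunctor C n).map_surjective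
      (x ≫ (shiftFunctorComm C n 1).hom.app D.P)
    rw [D.van y, Functor.map_zero] at hy
    rw [← cancel_mono ((shiftFunctorComm C n 1).hom.app D.P), ← hy, zero_comp]

@[simp] theorem TriData.shift_eps (D : TriData C Γ) (n : ℤ) (y : D.P' ⟶ D.P) :
    (D.shift n).eps (y⟦n⟧') = D.eps y :=
  congrArg D.eps ((shiftFunctor C n).preimage_map y)

set_option backward.defeqAttrib.useBackward true in
set_option backward.isDefEq.respectTransparency false in
/-- The shift of a cofibre. -/
noncomputable def Cone.shift {D : TriData C Γ} {a : Γ} (K : Cone D a) (n : ℤ) :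
    Cone (D.shift n) a where
  obj := K.obj⟦n⟧
  inn := K.inn⟦n⟧'
  out := n.negOnePow • K.out⟦n⟧' ≫ (shiftFunctorComm C 1 n).hom.app D.P
  dist := by
    refine isomorphic_distinguished _ (Triangle.shift_distinguished _ K.dist n) _
      (Triangle.isoMk _ _ (Iso.refl _) (n.negOnePow • Iso.refl _) (Iso.refl _) ?_ ?_ ?_)
    · simp [TriData.shift]
    · simp [TriData.shift, smul_smul]
    · simp [TriData.shift]

end Vale.Agent.P221X.NM
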