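import Mathlib.CategoryTheory.Triangulated.Triangulated
import Mathlib.CategoryTheory.Triangulated.Functor
import Mathlib.Algebra.Module.Injective
import Mathlib.LinearAlgebra.Quotient.Basic
import Mathlib.CategoryTheory.Preadditive.Basic

/-!
# P221, non-membership: abstract data

* `OreData Γ` : the injective right `Γ`-module `I = Q / Σ⁻¹ Γ` with the structure that is used.
* `TriData C Γ` : objects `P`, `P'` of a pretriangulated category with actions of `Γ` and a pairing.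
* `Cone D a` : a cofibre of `a ∈ Γ` acting on `P`; `kap` : the map `Hom(P', C_a) → I`.
-/

open CategoryTheory Limits Pretriangulated MulOpposite

universe v u w

namespace Vale.Agent.P221X.NM

/-- The injective module `I = Q / Σ⁻¹ Γ`: `inv a` is the class of `a⁻¹`, `L s` is the left
multiplication by `s ∈ Σ`. -/
structure OreData (Γ : Type w) [Ring Γ] where
  I : Type w
  [acg : AddCommGroup I]
  [mod : Module Γᵐᵒᵖ I]
  baer : Module.Baer Γᵐᵒᵖ I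
  Sig : Submonoid Γ
  sig_ne : ∀ s ∈ Sig, s ≠ 0
  L : Γ → I →ₗ[Γᵐᵒᵖ] I
  L_one : ∀ x, L 1 x = x
  L_mul : ∀ s ∈ Sig, ∀ t ∈ Sig, ∀ x, L (s * t) x = L s (L t x)
  inv : Γ → I
  inv_self : ∀ a : Γ, a ≠ 0 → op a • inv a = 0
  L_inv : ∀ s ∈ Sig, ∀ a a' c : Γ, a ≠ 0 → a' ≠ 0 → a' * s = c * a → L s (inv a) = op c • inv a'
  gen : ∀ x : I, ∃ s ∈ Sig, ∃ a γ : Γ, a ≠ 0 ∧ L s x = op γ • inv a
  ker : ∀ a γ : Γ, a ≠ 0 → op γ • inv a = 0 →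
    ∃ s ∈ Sig, ∃ a' c γ' : Γ, a' ≠ 0 ∧ a' * s = c * a ∧ c * γ = a' * γ'
  ore : ∀ s ∈ Sig, ∀ a b : Γ, a ≠ 0 → b ≠ 0 →
    ∃ a' c d : Γ, a' ≠ 0 ∧ a' * s = c * a ∧ a' = d * b
  sigOre : ∀ s ∈ Sig, ∀ γ : Γ, ∃ t ∈ Sig, ∃ γ' : Γ, t * γ = γ' * s
  rinj : ∀ s ∈ Sig, ∀ x : I, op s • x = 0 → x = 0
  rsurj : ∀ s ∈ Sig, ∀ x : I, ∃ y : I, op s • y = x

attribute [instance] OreData.acg OreData.mod

variable (C : Type u) [Category.{v} C] [Preadditive C] [HasShift C ℤ]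

/-- Objects `P`, `P'` with actions of `Γ` and a pairing `Hom(P', P) → Γ`. -/
structure TriData (Γ : Type w) [Ring Γ] where
  P : C
  P' : C
  lam : Γ → (P ⟶ P)
  lam_mul : ∀ a b, lam (a * b) = lam b ≫ lam a
  lam_zero : lam 0 = 0
  lam' : Γ → (P' ⟶ P')
  lam'_one : lam' 1 = 𝟙 _
  lam'_mul : ∀ a b, lam' (a * b) = lam' b ≫ lam' a
  lam'_add : ∀ a b, lam' (a + b) = lam' a + lam' b
  eps : (P' ⟶ P) →+ Γ
  eps_left : ∀ y a, eps (y ≫ lam a) = a * eps y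
  eps_right : ∀ y a, eps (lam' a ≫ y) = eps y * a
  van : ∀ x : P' ⟶ P⟦(1 : ℤ)⟧, x = 0

variable {C} {Γ : Type w} [Ring Γ]

/-- The axioms for a cell. -/
structure CellAx (O : OreData Γ) (D : TriData C Γ) (Z : C) : Prop where
  tf0 : ∀ a, a ≠ 0 → ∀ x : Z ⟶ D.P, x ≫ D.lam a = 0 → x = 0
  tf1 : ∀ a, a ≠ 0 → ∀ x : Z ⟶ D.P⟦(1 : ℤ)⟧, x ≫ (D.lam a)⟦(1 : ℤ)⟧' = 0 → x = 0
  free : ((∀ f : Z ⟶ D.P, f = 0) ∧ ∀ h : D.P' ⟶ Z, h = 0) ∨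
    ∃ (ι : Z ⟶ D.P) (δ : D.P' ⟶ Z), D.eps (δ ≫ ι) ∈ O.Sig ∧
      (∀ f : Z ⟶ D.P, ∃ s ∈ O.Sig, ∃ γ, f ≫ D.lam s = ι ≫ D.lam γ) ∧
      ∀ h : D.P' ⟶ Z, ∃ s ∈ O.Sig, ∃ γ, D.lam' s ≫ h = D.lam' γ ≫ δ

variable [HasZeroObject C] [∀ n : ℤ, (shiftFunctor C n).Additive] [Pretriangulated C]

/-- A cofibre of `a` acting on `P`. -/
structure Cone (D : TriData C Γ) (a : Γ) where
  obj : C
  inn : D.P ⟶ obj
  out : obj ⟶ D.P⟦(1 : ℤ)⟧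
  dist : Triangle.mk (D.lam a) inn out ∈ distTriang C

namespace Cone

variable {D : TriData C Γ} {a : Γ} (K : Cone D a)

theorem exists_lift (x : D.P' ⟶ K.obj) : ∃ y : D.P' ⟶ D.P, x = y ≫ K.inn :=
  Triangle.coyoneda_exact₃ _ K.dist x (D.van _)

/-- a lift of `x : P' ⟶ C_a` to `P` -/
noncomputable def lift (x : D.P' ⟶ K.obj) : D.P' ⟶ D.P := (K.exists_lift x).choose

theorem lift_spec (x : D.P' ⟶ K.obj) : x = K.lift x ≫ K.inn := (K.exists_lift x).choose_spec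

end Cone

/-- The map `Hom(P', C_a) → I`, `γ ↦ a⁻¹ γ`. -/
noncomputable def kap (O : OreData Γ) {D : TriData C Γ} {a : Γ} (K : Cone D a)
    (x : D.P' ⟶ K.obj) : O.I :=
  op (D.eps (K.lift x)) • O.inv a

/-- `B`-cellular objects: finitely many cells `B⟦k⟧`, attached one at a time. -/
inductive Cell (B : C) : C → Prop
  | zero {Z : C} : IsZero Z → Cell B Z
  | step {Z' Z : C} {k : ℤ} {i : Z' ⟶ Z} {π : Z ⟶ B⟦k⟧} {d : B⟦k⟧ ⟶ Z'⟦(1 : ℤ)⟧} :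
      Cell B Z' → (Triangle.mk i π d ∈ distTriang C) → Cell B Z

end Vale.Agent.P221X.NM
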