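import Mathlib.Data.Set.Finite.Basic
import Mathlib.Data.Set.Finite.Lattice
import Mathlib.Data.Finite.Prod
import Mathlib.Algebra.Group.Hom.Defs
import Mathlib.Algebra.Group.Basic
import Mathlib.Tactic.Abel

/-!
# P221, non-membership: the five lemma modulo finite groups
-/

namespace Vale.Agent.P221X.NM

variable {A B : Type*} [AddCommGroup A] [AddCommGroup B]

/-- finite kernel -/
def FinKer (φ : A →+ B) : Prop := {x | φ x = 0}.Finite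

/-- finite cokernel -/
def FinCoker (φ : A →+ B) : Prop := ∃ F : Set B, F.Finite ∧ ∀ y, ∃ x, ∃ f ∈ F, y = φ x + f

theorem choose_fin {X Y : Type*} (a : X → Y) {G : Set Y} (hG : G.Finite) :
    ∃ G' : Set X, G'.Finite ∧ ∀ x, a x ∈ G → ∃ x' ∈ G', a x = a x' := by
  classical
  refine ⟨(fun y : (G ∩ Set.range a : Set Y) => y.2.2.choose) '' Set.univ, ?_, fun x hx => ?_⟩
  · have : Finite (G ∩ Set.range a : Set Y) := (hG.inter_of_left _).to_subtype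
    exact Set.finite_univ.image _
  · exact ⟨_, ⟨⟨a x, hx, x, rfl⟩, trivial, rfl⟩,
      (Exists.choose_spec (p := fun z => a z = a x) ⟨x, rfl⟩).symm⟩

theorem FinKer.preimage {φ : A →+ B} (h : FinKer φ) {G : Set B} (hG : G.Finite) :
    {x | φ x ∈ G}.Finite := by
  obtain ⟨G', hG', h'⟩ := choose_fin φ hG
  refine ((hG'.prod h).image fun z => z.1 + z.2).subset fun x hx => ?_
  obtain ⟨x', hx', he⟩ := h' x hx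
  exact ⟨(x', x - x'), ⟨hx', by simp [he]⟩, by simp⟩

variable {A₁ A₂ A₃ A₄ A₅ B₁ B₂ B₃ B₄ B₅ : Type*} [AddCommGroup A₁] [AddCommGroup A₂]
  [AddCommGroup A₃] [AddCommGroup A₄] [AddCommGroup A₅] [AddCommGroup B₁] [AddCommGroup B₂]
  [AddCommGroup B₃] [AddCommGroup B₄] [AddCommGroup B₅]

theorem finKer_four {a₁ : A₁ →+ A₂} {a₂ : A₂ →+ A₃} {a₃ : A₃ →+ A₄} {b₁ : B₁ →+ B₂}
    {b₂ : B₂ →+ B₃} {b₃ : B₃ →+ B₄} {φ₁ : A₁ →+ B₁} {φ₂ : A₂ →+ B₂} {φ₃ : A₃ →+ B₃}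
    {φ₄ : A₄ →+ B₄} (c₁ : ∀ x, φ₂ (a₁ x) = b₁ (φ₁ x)) (c₂ : ∀ x, φ₃ (a₂ x) = b₂ (φ₂ x))
    (c₃ : ∀ x, φ₄ (a₃ x) = b₃ (φ₃ x)) (z : ∀ x, a₂ (a₁ x) = 0)
    (e₃ : ∀ x, a₃ x = 0 → ∃ y, x = a₂ y)
    (e₂ : ∀ y, b₂ y = 0 → ∃ z, y = b₁ z)
    (h₁ : FinCoker φ₁) (h₂ : FinKer φ₂) (h₄ : FinKer φ₄) : FinKer φ₃ := by
  obtain ⟨F, hF, h₁⟩ := h₁
  have hS := (h₂.preimage (hF.image b₁)).image a₂
  obtain ⟨G', hG', h'⟩ := choose_fin (fun x : {x // φ₃ x = 0} => a₃ x) h₄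
  refine (((hG'.image Subtype.val).prod hS).image fun z => z.1 + z.2).subset fun x hx => ?_
  obtain ⟨x', hx', he⟩ := h' ⟨x, hx⟩ (by
    change φ₄ (a₃ x) = 0
    rw [c₃, show φ₃ x = 0 from hx, map_zero])
  obtain ⟨y, hy⟩ := e₃ (x - x') (by rw [map_sub]; exact sub_eq_zero.2 he)
  obtain ⟨w, hw⟩ := e₂ (φ₂ y) (by rw [← c₂, ← hy, map_sub, show φ₃ x = 0 from hx, x'.2, sub_zero])
  obtain ⟨w', f, hf, rfl⟩ := h₁ w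
  refine ⟨(x', x - x'), ⟨⟨x', hx', rfl⟩, y - a₁ w', ⟨f, hf, ?_⟩, ?_⟩, by simp⟩
  · rw [map_sub, hw, c₁, map_add]; abel
  · rw [map_sub, z, sub_zero, hy]

theorem finCoker_four {a₂ : A₂ →+ A₃} {a₃ : A₃ →+ A₄} {a₄ : A₄ →+ A₅} {b₂ : B₂ →+ B₃}
    {b₃ : B₃ →+ B₄} {b₄ : B₄ →+ B₅} {φ₂ : A₂ →+ B₂} {φ₃ : A₃ →+ B₃} {φ₄ : A₄ →+ B₄}
    {φ₅ : A₅ →+ B₅} (c₂ : ∀ x, φ₃ (a₂ x) = b₂ (φ₂ x)) (c₃ : ∀ x, φ₄ (a₃ x) = b₃ (φ₃ x))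
    (c₄ : ∀ x, φ₅ (a₄ x) = b₄ (φ₄ x)) (z : ∀ y, b₄ (b₃ y) = 0)
    (e₄ : ∀ x, a₄ x = 0 → ∃ y, x = a₃ y) (e₃ : ∀ y, b₃ y = 0 → ∃ z, y = b₂ z)
    (h₂ : FinCoker φ₂) (h₄ : FinCoker φ₄) (h₅ : FinKer φ₅) : FinCoker φ₃ := by
  obtain ⟨F₂, hF₂, h₂⟩ := h₂
  obtain ⟨F₄, hF₄, h₄⟩ := h₄
  obtain ⟨G, hG, hG'⟩ := choose_fin a₄ (h₅.preimage (hF₄.image fun f => -b₄ f))
  obtain ⟨H, hH, hH'⟩ := choose_fin b₃ ((hG.prod hF₄).image fun z => φ₄ z.1 + z.2)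
  refine ⟨_, (hH.prod hF₂).image fun z => z.1 + b₂ z.2, fun y => ?_⟩
  obtain ⟨x, f, hf, hx⟩ := h₄ (b₃ y)
  obtain ⟨x', hx', he⟩ := hG' x ⟨f, hf, by
    have := z y
    rw [hx, map_add] at this
    rw [c₄]; exact (eq_neg_of_add_eq_zero_left this).symm⟩
  obtain ⟨w, hw⟩ := e₄ (x - x') (by rw [map_sub, he, sub_self])
  obtain ⟨y', hy', he'⟩ := hH' (y - φ₃ w) ⟨(x', f), ⟨hx', hf⟩, by
    rw [map_sub, hx, ← c₃, ← hw, map_sub]; abel⟩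
  obtain ⟨v, hv⟩ := e₃ (y - φ₃ w - y') (by rw [map_sub, he', sub_self])
  obtain ⟨v', f', hf', rfl⟩ := h₂ v
  refine ⟨w + a₂ v', _, ⟨(y', f'), ⟨hy', hf'⟩, rfl⟩, ?_⟩
  rw [map_add] at hv
  rw [map_add, c₂]
  have : y = φ₃ w + y' + (y - φ₃ w - y') := by abel
  rw [hv] at this
  change y = φ₃ w + b₂ (φ₂ v') + (y' + b₂ f')
  rw [this]; abel

/-- an additive map with finitely many values on a subgroup of finite index has finite range -/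
theorem FinCoker.finite_range {φ : A →+ B} (h : FinCoker φ) {V : Type*} [AddCommGroup V]
    (ρ : B →+ V) (hρ : (Set.range fun x => ρ (φ x)).Finite) : (Set.range ρ).Finite := by
  obtain ⟨F, hF, h⟩ := h
  refine ((hρ.prod hF).image fun z => z.1 + ρ z.2).subset ?_
  rintro _ ⟨y, rfl⟩
  obtain ⟨x, f, hf, rfl⟩ := h y
  exact ⟨(ρ (φ x), f), ⟨⟨x, rfl⟩, hf⟩, (map_add _ _ _).symm⟩

end Vale.Agent.P221X.NM
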