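import Vale.Agent.P221X.NM.Five
import Vale.Agent.P221X.NM.Fin
import Mathlib.CategoryTheory.Triangulated.Subcategory

/-!
# P221, non-membership: thick subcategories, cells, exact functors
-/

open CategoryTheory Limits Pretriangulated MulOpposite

set_option linter.unusedSectionVars false

universe v u w

namespace Vale.Agent.P221X.NM

variable {C : Type u} [Category.{v} C] [Preadditive C] [HasShift C ℤ] [HasZeroObject C]
  [∀ n : ℤ, (shiftFunctor C n).Additive] [Pretriangulated C]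

/-- The thick subcategory generated by `B`. -/
inductive Thick (B : C) : C → Prop
  | base : Thick B B
  | zero {X : C} : 𝟙 X = 0 → Thick B X
  | susp (k : ℤ) {X : C} : Thick B X → Thick B (X⟦k⟧)
  | cof {X Y Z : C} {f : X ⟶ Y} {g : Y ⟶ Z} {h : Z ⟶ X⟦(1 : ℤ)⟧} :
      (Triangle.mk f g h ∈ distTriang C) → Thick B X → Thick B Y → Thick B Z
  | retract {X Y : C} (i : X ⟶ Y) (r : Y ⟶ X) : i ≫ r = 𝟙 X → Thick B Y → Thick B X

variable {B : C}

set_option backward.defeqAttrib.useBackward true in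
theorem Cell.iso {Z Z' : C} (h : Cell B Z) (e : Z ≅ Z') : Cell B Z' := by
  cases h with
  | zero h => exact .zero (h.of_iso e.symm)
  | @step Z₀ _ k i π d h hT =>
    exact .step (i := i ≫ e.hom) (π := e.inv ≫ π) (d := d) h
      (isomorphic_distinguished _ hT _ (Triangle.isoMk _ _ (Iso.refl _) e.symm (Iso.refl _)))

set_option backward.defeqAttrib.useBackward true in
theorem Cell.step' {T : Triangle C} (hT : T ∈ distTriang C) (h : Cell B T.obj₁) {k : ℤ}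
    (e : T.obj₃ ≅ B⟦k⟧) : Cell B T.obj₂ :=
  .step (i := T.mor₁) (π := T.mor₂ ≫ e.hom) (d := e.inv ≫ T.mor₃) h
    (isomorphic_distinguished _ hT _ (Triangle.isoMk _ _ (Iso.refl _) (Iso.refl _) e.symm))

theorem Cell.shift {Z : C} (h : Cell B Z) (n : ℤ) : Cell B (Z⟦n⟧) := by
  induction h with
  | zero h => exact .zero (Functor.map_isZero _ h)
  | @step Z₀ Z k i π d _ hT ih =>
    exact Cell.step' (Triangle.shift_distinguished _ hT n) ih
      ((shiftFunctorAdd C k n).symm.app B)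

theorem Cell.ext [IsTriangulated C] {Z'' : C} (h'' : Cell B Z'') :
    ∀ {Z' Z : C} {i : Z' ⟶ Z} {π : Z ⟶ Z''} {d : Z'' ⟶ Z'⟦(1 : ℤ)⟧},
      (Triangle.mk i π d ∈ distTriang C) → Cell B Z' → Cell B Z := by
  induction h'' with
  | zero h =>
    intro Z' Z i π d hT h'
    have : IsIso i := (Triangle.isZero₃_iff_isIso₁ _ hT).1 h
    exact h'.iso (asIso i)
  | @step Z₀ Z'' k i₀ π₀ d₀ _ hT₀ ih =>
    intro Z' Z i π d hT h'
    obtain ⟨Y, f, e, hY⟩ := distinguished_cocone_triangle₁ (π ≫ π₀)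
    exact .step (ih (Triangulated.someOctahedron' rfl hT hT₀ hY).mem h') hY

theorem Thick.exists_cell [IsTriangulated C] {X : C} (h : Thick B X) :
    ∃ (Z : C) (i : X ⟶ Z) (r : Z ⟶ X), Cell B Z ∧ i ≫ r = 𝟙 X := by
  induction h with
  | base =>
    refine ⟨B, 𝟙 _, 𝟙 _, ?_, Category.id_comp _⟩
    exact Cell.step' (inv_rot_of_distTriang _ (contractible_distinguished B))
      (.zero (Functor.map_isZero _ (isZero_zero C))) ((shiftFunctorZero C ℤ).symm.app B)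
  | @zero X h => exact ⟨X, 𝟙 _, 𝟙 _, .zero ((IsZero.iff_id_eq_zero X).2 h), Category.id_comp _⟩
  | susp k _ ih =>
    obtain ⟨Z, i, r, hZ, hir⟩ := ih
    exact ⟨Z⟦k⟧, i⟦k⟧', r⟦k⟧', hZ.shift k, by
      rw [← CategoryTheory.Functor.map_comp, hir, CategoryTheory.Functor.map_id]⟩
  | @cof X Y Z f g h hT _ _ ihX ihY =>
    obtain ⟨X', i, r, hX', hir⟩ := ihX
    obtain ⟨Y', i', r', hY', hir'⟩ := ihY
    have h0 : i⟦(1 : ℤ)⟧' ≫ r⟦(1 : ℤ)⟧' = 𝟙 _ := by
      rw [← CategoryTheory.Functor.map_comp, hir, CategoryTheory.Functor.map_id]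
    have h1 : ObjectProperty.extensionProduct (ObjectProperty.retractClosure (Cell B))
        (ObjectProperty.retractClosure (Cell B)) Z :=
      ⟨_, _, _, _, _, rot_of_distTriang _ hT, ⟨Y', hY', ⟨⟨i', r', hir'⟩⟩⟩,
        ⟨X'⟦(1 : ℤ)⟧, hX'.shift 1, ⟨⟨i⟦(1 : ℤ)⟧', r⟦(1 : ℤ)⟧', h0⟩⟩⟩⟩
    obtain ⟨W, ⟨A, A', f', g', h', hT', hA, hA'⟩, ⟨R⟩⟩ :=
      ObjectProperty.extensionProduct_retractClosure_retractClosure_le _ _ Z h1
    exact ⟨W, R.i, R.r, hA'.ext hT' hA, R.retract⟩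
  | retract i r hir _ ih =>
    obtain ⟨Z, i', r', hZ, hir'⟩ := ih
    exact ⟨Z, i ≫ i', r' ≫ r, hZ, by rw [Category.assoc, reassoc_of% hir', hir]⟩

/-- The functor `F` carries distinguished triangles to sequences which are exact on `Hom` groups. -/
structure Ex (F : C ⥤ C) : Prop where
  zero : ∀ T ∈ distTriang C, F.map T.mor₁ ≫ F.map T.mor₂ = 0
  co : ∀ T ∈ distTriang C, ∀ (W : C) (x : W ⟶ F.obj T.obj₂), x ≫ F.map T.mor₂ = 0 →
    ∃ y : W ⟶ F.obj T.obj₁, x = y ≫ F.map T.mor₁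
  contra : ∀ T ∈ distTriang C, ∀ (W : C) (x : F.obj T.obj₂ ⟶ W), F.map T.mor₁ ≫ x = 0 →
    ∃ y : F.obj T.obj₃ ⟶ W, x = F.map T.mor₂ ≫ y

theorem Ex.id : Ex (𝟭 C) :=
  ⟨fun _ hT => comp_distTriang_mor_zero₁₂ _ hT,
    fun _ hT _ x hx => Triangle.coyoneda_exact₂ _ hT x hx,
    fun _ hT _ x hx => Triangle.yoneda_exact₂ _ hT x hx⟩

theorem Ex.of_isTriangulated (F : C ⥤ C) [F.CommShift ℤ] [F.IsTriangulated] : Ex F :=
  ⟨fun T hT => comp_distTriang_mor_zero₁₂ _ (F.map_distinguished T hT),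
    fun T hT _ x hx => Triangle.coyoneda_exact₂ _ (F.map_distinguished T hT) x hx,
    fun T hT _ x hx => Triangle.yoneda_exact₂ _ (F.map_distinguished T hT) x hx⟩

open ZeroObject in
theorem Ex.isZero {F : C ⥤ C} (hF : Ex F) {Z : C} (h : IsZero Z) : IsZero (F.obj Z) := by
  have h1 : F.map (𝟙 Z) ≫ F.map (0 : Z ⟶ 0) = 0 := hF.zero _ (contractible_distinguished Z)
  rw [F.map_id, Category.id_comp] at h1
  rw [IsZero.iff_id_eq_zero, ← F.map_id, h.eq_of_src (𝟙 Z) ((0 : Z ⟶ 0) ≫ 0), F.map_comp, h1,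
    zero_comp]

open ZeroObject in
theorem Ex.map_zero {F : C ⥤ C} (hF : Ex F) (X Y : C) : F.map (0 : X ⟶ Y) = 0 := by
  rw [← comp_zero (f := (0 : X ⟶ 0)), F.map_comp,
    (hF.isZero (isZero_zero C)).eq_of_tgt (F.map (0 : X ⟶ 0)) 0, zero_comp]

/-- Induction over cells for properties which depend on five consecutive terms. -/
theorem Cell.induct {Q : C → Prop} (iso : ∀ {Z Z' : C}, (Z ≅ Z') → Q Z → Q Z')
    (zero : ∀ {Z : C}, IsZero Z → Q Z) (base : ∀ k : ℤ, Q (B⟦k⟧))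
    (five : ∀ T ∈ distTriang C, Q T.invRotate.obj₁ → Q T.obj₁ → Q T.obj₃ → Q T.rotate.obj₃ →
      Q T.obj₂) {Z : C} (h : Cell B Z) : Q Z := by
  have : ∀ n : ℤ, Q (Z⟦n⟧) := by
    induction h with
    | zero h => exact fun n => zero (Functor.map_isZero _ h)
    | @step Z₀ Z k i π d _ hT ih =>
      intro n
      refine five _ (Triangle.shift_distinguished _ hT n) ?_ (ih n) ?_ ?_
      · exact iso ((shiftFunctorAdd C (k + n) (-1)).app B ≪≫
          (shiftFunctor C (-1 : ℤ)).mapIso ((shiftFunctorAdd C k n).app B)) (base _)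
      · exact iso ((shiftFunctorAdd C k n).app B) (base _)
      · exact iso ((shiftFunctorAdd C n 1).app Z₀) (ih _)
  exact iso ((shiftFunctorZero C ℤ).app Z) (this 0)

variable {Γ : Type w} [Ring Γ] [NoZeroDivisors Γ] {O : OreData Γ} {D : TriData C Γ}

theorem Cell.surj_inj {F : C ⥤ C} (hF : Ex F) (hB : ∀ k : ℤ, GoodCell O D (F.obj (B⟦k⟧)))
    {Z : C} (h : Cell B Z) : Surj O D (F.obj Z) ∧ Inj O D (F.obj Z) := by
  refine Cell.induct (Q := fun Z => Surj O D (F.obj Z) ∧ Inj O D (F.obj Z)) ?_ ?_ ?_ ?_ h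
  · intro Z Z' e h
    have he : F.map e.inv ≫ F.map e.hom = 𝟙 _ := by rw [← F.map_comp, e.inv_hom_id, F.map_id]
    exact ⟨h.1.retract _ _ he, h.2.retract _ _ he⟩
  · intro Z h
    have h' := hF.isZero h
    have : CellAx O D (F.obj Z) := ⟨fun _ _ x _ => h'.eq_of_src _ _, fun _ _ x _ => h'.eq_of_src _ _,
      .inl ⟨fun f => h'.eq_of_src _ _, fun f => h'.eq_of_tgt _ _⟩⟩
    exact ⟨this.surj, this.inj⟩
  · exact fun k => ⟨(hB k).surj, (hB k).inj⟩
  · intro T hT h₀ h₁ h₃ h₄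
    have hi := inv_rot_of_distTriang _ hT
    have hr := rot_of_distTriang _ hT
    exact ⟨surj_five (hF.zero _ hi) (hF.contra _ hi) (hF.co _ hT _) h₀.2 h₁.1 h₃.1,
      inj_five (hF.contra _ hT) (hF.co _ hr _) (hF.zero _ hr) h₁.2 h₃.2 h₄.1⟩

/-- postcomposition -/
def post (M : C) {X Y : C} (f : X ⟶ Y) : (M ⟶ X) →+ (M ⟶ Y) :=
  Preadditive.rightComp M f

@[simp] theorem post_apply (M : C) {X Y : C} (f : X ⟶ Y) (x : M ⟶ X) : post M f x = x ≫ f := rfl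

variable {Lh Le : C ⥤ C} (ηh : 𝟭 C ⟶ Lh) (ηe : 𝟭 C ⟶ Le)

/-- the map `[M, L_e Z] ⊕ [M, L_h Z] → [M, L_e L_h Z]` of the fracture square -/
def frac (M Z : C) : (M ⟶ Le.obj Z) × (M ⟶ Lh.obj Z) →+ (M ⟶ Le.obj (Lh.obj Z)) :=
  (post M (Le.map (ηh.app Z))).coprod (post M (ηe.app (Lh.obj Z)))

theorem frac_apply (M Z : C) (x : (M ⟶ Le.obj Z) × (M ⟶ Lh.obj Z)) :
    frac ηh ηe M Z x = x.1 ≫ Le.map (ηh.app Z) + x.2 ≫ ηe.app (Lh.obj Z) := rfl

/-- the map on the source of `frac` -/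
def fracSrc (Lh Le : C ⥤ C) (M : C) {Z Z' : C} (f : Z ⟶ Z') :
    (M ⟶ Le.obj Z) × (M ⟶ Lh.obj Z) →+ (M ⟶ Le.obj Z') × (M ⟶ Lh.obj Z') :=
  (post M (Le.map f)).prodMap (post M (Lh.map f))

theorem fracSrc_apply (M : C) {Z Z' : C} (f : Z ⟶ Z') (x : (M ⟶ Le.obj Z) × (M ⟶ Lh.obj Z)) :
    fracSrc Lh Le M f x = (x.1 ≫ Le.map f, x.2 ≫ Lh.map f) := rfl

theorem frac_nat (M : C) {Z Z' : C} (f : Z ⟶ Z') (x : (M ⟶ Le.obj Z) × (M ⟶ Lh.obj Z)) :
    frac ηh ηe M Z' (fracSrc Lh Le M f x) = post M (Le.map (Lh.map f)) (frac ηh ηe M Z x) := by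
  have h1 : f ≫ ηh.app Z' = ηh.app Z ≫ Lh.map f := ηh.naturality f
  have h2 : Lh.map f ≫ ηe.app (Lh.obj Z') = ηe.app (Lh.obj Z) ≫ Le.map (Lh.map f) :=
    ηe.naturality (Lh.map f)
  rw [frac_apply, fracSrc_apply, post_apply, frac_apply, Preadditive.add_comp, Category.assoc,
    Category.assoc, Category.assoc, Category.assoc, h2, ← Le.map_comp, ← Le.map_comp]
  exact congrArg (fun t => x.1 ≫ Le.map t + _) h1

theorem Cell.lattice (hh : Ex Lh) (he : Ex Le) (hhe : Ex (Lh ⋙ Le)) (M : C)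
    (hB : ∀ k : ℤ, FinKer (frac ηh ηe M (B⟦k⟧)) ∧ FinCoker (frac ηh ηe M (B⟦k⟧)))
    {Z : C} (h : Cell B Z) : FinKer (frac ηh ηe M Z) ∧ FinCoker (frac ηh ηe M Z) := by
  have src0 : ∀ T ∈ distTriang C, ∀ x, fracSrc Lh Le M T.mor₂ (fracSrc Lh Le M T.mor₁ x) = 0 :=
    fun T hT x => by
      rw [fracSrc_apply, fracSrc_apply, Category.assoc, Category.assoc, he.zero T hT,
        hh.zero T hT, comp_zero, comp_zero]; rfl
  have srcE : ∀ T ∈ distTriang C, ∀ x, fracSrc Lh Le M T.mor₂ x = 0 →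
      ∃ y, x = fracSrc Lh Le M T.mor₁ y := fun T hT x hx => by
    obtain ⟨y, hy⟩ := he.co T hT M x.1 (congrArg Prod.fst hx)
    obtain ⟨y', hy'⟩ := hh.co T hT M x.2 (congrArg Prod.snd hx)
    exact ⟨(y, y'), Prod.ext hy hy'⟩
  have tgt0 : ∀ T ∈ distTriang C, ∀ x,
      post M (Le.map (Lh.map T.mor₂)) (post M (Le.map (Lh.map T.mor₁)) x) = 0 := fun T hT x => by
    have : Le.map (Lh.map T.mor₁) ≫ Le.map (Lh.map T.mor₂) = 0 := hhe.zero T hT
    rw [post_apply, post_apply, Category.assoc, this, comp_zero]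
  have tgtE : ∀ T ∈ distTriang C, ∀ x, post M (Le.map (Lh.map T.mor₂)) x = 0 →
      ∃ y, x = post M (Le.map (Lh.map T.mor₁)) y := fun T hT x hx => hhe.co T hT M x hx
  refine Cell.induct (Q := fun Z => FinKer (frac ηh ηe M Z) ∧ FinCoker (frac ηh ηe M Z))
    ?_ ?_ hB ?_ h
  · intro Z Z' e h
    have e1 : ∀ x, fracSrc Lh Le M e.hom (fracSrc Lh Le M e.inv x) = x := fun x => by
      simp [fracSrc_apply, ← Functor.map_comp]
    constructor
    · refine (h.1.image (fracSrc Lh Le M e.hom)).subset fun x hx => ⟨_, ?_, e1 x⟩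
      change frac ηh ηe M Z _ = 0
      rw [frac_nat, show frac ηh ηe M Z' x = 0 from hx, map_zero]
    · obtain ⟨F, hF, h⟩ := h.2
      refine ⟨_, hF.image (post M (Le.map (Lh.map e.hom))), fun y => ?_⟩
      obtain ⟨x, f, hf, hx⟩ := h (y ≫ Le.map (Lh.map e.inv))
      refine ⟨fracSrc Lh Le M e.hom x, _, ⟨f, hf, rfl⟩, ?_⟩
      rw [frac_nat, ← map_add, ← hx]
      simp [← Functor.map_comp]
  · intro Z h
    refine ⟨(Set.finite_singleton 0).subset fun x _ => Prod.ext ((he.isZero h).eq_of_tgt _ _)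
      ((hh.isZero h).eq_of_tgt _ _), {0}, Set.finite_singleton _, fun y => ⟨0, 0, rfl, ?_⟩⟩
    exact (hhe.isZero h).eq_of_tgt _ _
  · intro T hT h₀ h₁ h₃ h₄
    have hi := inv_rot_of_distTriang _ hT
    have hr := rot_of_distTriang _ hT
    exact ⟨finKer_four (frac_nat ηh ηe M T.invRotate.mor₁) (frac_nat ηh ηe M T.mor₁)
        (frac_nat ηh ηe M T.mor₂) (src0 _ hi) (srcE _ hT) (tgtE _ hi) h₀.2 h₁.1 h₃.1,
      finCoker_four (frac_nat ηh ηe M T.mor₁) (frac_nat ηh ηe M T.mor₂)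
        (frac_nat ηh ηe M T.rotate.mor₂) (tgt0 _ hr) (srcE _ hr) (tgtE _ hT) h₁.2 h₃.2 h₄.1⟩

end Vale.Agent.P221X.NM
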