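import Vale.Agent.P221X.NM.Defs

/-!
# P221, non-membership: the universal coefficient theorem by the five lemma
-/

open CategoryTheory Limits Pretriangulated MulOpposite

set_option linter.unusedSectionVars false

universe v u w

namespace Vale.Agent.P221X.NM

variable {C : Type u} [Category.{v} C] [Preadditive C] [HasShift C ℤ] [HasZeroObject C]
  [∀ n : ℤ, (shiftFunctor C n).Additive] [Pretriangulated C] {Γ : Type w} [Ring Γ]
  (O : OreData Γ) {D : TriData C Γ}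

theorem kap_inn {a : Γ} (ha : a ≠ 0) (K : Cone D a) (y : D.P' ⟶ D.P) :
    kap O K (y ≫ K.inn) = op (D.eps y) • O.inv a := by
  have h : (K.lift (y ≫ K.inn) - y) ≫ K.inn = 0 := by
    rw [Preadditive.sub_comp, ← K.lift_spec, sub_self]
  obtain ⟨z, hz⟩ : ∃ z : D.P' ⟶ D.P, K.lift (y ≫ K.inn) - y = z ≫ D.lam a :=
    Triangle.coyoneda_exact₂ _ K.dist _ h
  have hz' : K.lift (y ≫ K.inn) = y + z ≫ D.lam a := by
    rw [← sub_eq_iff_eq_add']; exact hz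
  unfold kap
  rw [hz', map_add, D.eps_left, op_add, add_smul, op_mul, mul_smul, O.inv_self a ha, smul_zero,
    add_zero]

theorem kap_add {a : Γ} (ha : a ≠ 0) (K : Cone D a) (x x' : D.P' ⟶ K.obj) :
    kap O K (x + x') = kap O K x + kap O K x' := by
  obtain ⟨y, rfl⟩ := K.exists_lift x
  obtain ⟨y', rfl⟩ := K.exists_lift x'
  rw [← Preadditive.add_comp, kap_inn O ha, kap_inn O ha, kap_inn O ha, map_add, op_add, add_smul]

theorem kap_zero {a : Γ} (ha : a ≠ 0) (K : Cone D a) : kap O K 0 = 0 := by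
  have := kap_inn O ha K 0
  simpa using this

theorem kap_sub {a : Γ} (ha : a ≠ 0) (K : Cone D a) (x x' : D.P' ⟶ K.obj) :
    kap O K (x - x') = kap O K x - kap O K x' := by
  rw [eq_sub_iff_add_eq, ← kap_add O ha, sub_add_cancel]

theorem kap_smul {a : Γ} (ha : a ≠ 0) (K : Cone D a) (c : Γ) (x : D.P' ⟶ K.obj) :
    kap O K (D.lam' c ≫ x) = op c • kap O K x := by
  obtain ⟨y, rfl⟩ := K.exists_lift x
  rw [← Category.assoc, kap_inn O ha, kap_inn O ha, D.eps_right, op_mul, mul_smul]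

/-- `Hom(P', Z)` as a right `Γ`-module -/
def HM (D : TriData C Γ) (Z : C) : Type v := D.P' ⟶ Z

instance (Z : C) : AddCommGroup (HM D Z) := inferInstanceAs (AddCommGroup (D.P' ⟶ Z))

theorem lam'_zero (D : TriData C Γ) : D.lam' 0 = 0 := by
  have h := D.lam'_add 0 0
  rwa [add_zero, left_eq_add] at h

instance (Z : C) : Module Γᵐᵒᵖ (HM D Z) where
  smul c (x : D.P' ⟶ Z) := (D.lam' c.unop ≫ x : D.P' ⟶ Z)
  one_smul (x : D.P' ⟶ Z) := (show D.lam' 1 ≫ x = x by rw [D.lam'_one, Category.id_comp])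
  mul_smul c c' (x : D.P' ⟶ Z) :=
    (show D.lam' (c'.unop * c.unop) ≫ x = D.lam' c.unop ≫ D.lam' c'.unop ≫ x by
      rw [D.lam'_mul, Category.assoc])
  smul_zero c := comp_zero
  smul_add c x y := Preadditive.comp_add _ _ _ _ _ _
  add_smul c c' (x : D.P' ⟶ Z) :=
    (show D.lam' (c.unop + c'.unop) ≫ x = D.lam' c.unop ≫ x + D.lam' c'.unop ≫ x by
      rw [D.lam'_add, Preadditive.add_comp])
  zero_smul (x : D.P' ⟶ Z) := (show D.lam' 0 ≫ x = 0 by rw [lam'_zero, zero_comp])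

/-- A map `Hom(P', Z) → I` is linear. -/
structure IsLin (D : TriData C Γ) (Z : C) (ψ : (D.P' ⟶ Z) → O.I) : Prop where
  add : ∀ x y, ψ (x + y) = ψ x + ψ y
  smul : ∀ c x, ψ (D.lam' c ≫ x) = op c • ψ x

namespace IsLin

variable {O}

/-- the linear map -/
def toLin {Z : C} {ψ : (D.P' ⟶ Z) → O.I} (h : IsLin O D Z ψ) : HM D Z →ₗ[Γᵐᵒᵖ] O.I where
  toFun := ψ
  map_add' := h.add
  map_smul' c x := h.smul c.unop x

theorem zero {Z : C} {ψ : (D.P' ⟶ Z) → O.I} (h : IsLin O D Z ψ) : ψ 0 = 0 := h.toLin.map_zero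

theorem comp {Z Z' : C} {ψ : (D.P' ⟶ Z') → O.I} (h : IsLin O D Z' ψ) (f : Z ⟶ Z') :
    IsLin O D Z fun x => ψ (x ≫ f) :=
  ⟨fun x y => by rw [Preadditive.add_comp, h.add], fun c x => by rw [Category.assoc, h.smul]⟩

theorem sub {Z : C} {ψ ψ' : (D.P' ⟶ Z) → O.I} (h : IsLin O D Z ψ) (h' : IsLin O D Z ψ') :
    IsLin O D Z fun x => ψ x - ψ' x :=
  ⟨fun x y => by rw [h.add, h'.add]; abel, fun c x => by rw [h.smul, h'.smul, smul_sub]⟩

theorem left {Z : C} {ψ : (D.P' ⟶ Z) → O.I} (h : IsLin O D Z ψ) (s : Γ) :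
    IsLin O D Z fun x => O.L s (ψ x) :=
  ⟨fun x y => by rw [h.add, map_add], fun c x => by rw [h.smul, map_smul]⟩

/-- extension along a map, by the injectivity of `I` -/
theorem extend {Z Z' : C} {ψ : (D.P' ⟶ Z) → O.I} (h : IsLin O D Z ψ) (f : Z ⟶ Z')
    (hf : ∀ x : D.P' ⟶ Z, x ≫ f = 0 → ψ x = 0) :
    ∃ ψ' : (D.P' ⟶ Z') → O.I, IsLin O D Z' ψ' ∧ ∀ x, ψ' (x ≫ f) = ψ x := by
  let φ : HM D Z →ₗ[Γᵐᵒᵖ] HM D Z' :=
    { toFun := fun x => ((x : D.P' ⟶ Z) ≫ f : D.P' ⟶ Z')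
      map_add' := fun x y => Preadditive.add_comp _ _ _ _ _ _
      map_smul' := fun c x => Category.assoc _ _ _ }
  have hk : LinearMap.ker φ ≤ LinearMap.ker h.toLin := fun x hx => hf x hx
  obtain ⟨g, hg⟩ := O.baer.extension_property ((LinearMap.ker φ).liftQ φ le_rfl)
    (by rw [← LinearMap.ker_eq_bot]; exact Submodule.ker_liftQ_eq_bot _ _ _ le_rfl)
    ((LinearMap.ker φ).liftQ h.toLin hk)
  refine ⟨fun x => g x, ⟨fun x y => g.map_add x y, fun c x => g.map_smul (op c) x⟩, fun x => ?_⟩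
  have := LinearMap.congr_fun hg (Submodule.Quotient.mk x)
  exact this

end IsLin

theorem isLin_kap {a : Γ} (ha : a ≠ 0) (K : Cone D a) : IsLin O D K.obj (kap O K) :=
  ⟨kap_add O ha K, kap_smul O ha K⟩

/-- `μ : C_a ⟶ C_{a'}` is part of a morphism of triangles, which is `s` on the first object. -/
def IsMor {a a' : Γ} (K : Cone D a) (K' : Cone D a') (s : Γ) (μ : K.obj ⟶ K'.obj) : Prop :=
  ∃ c, a' * s = c * a ∧ K.inn ≫ μ = D.lam c ≫ K'.inn ∧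
    μ ≫ K'.out = K.out ≫ (D.lam s)⟦(1 : ℤ)⟧'

theorem exists_cone (D : TriData C Γ) (a : Γ) : Nonempty (Cone D a) := by
  obtain ⟨Z, g, h, hd⟩ := distinguished_cocone_triangle (D.lam a)
  exact ⟨⟨Z, g, h, hd⟩⟩

theorem exists_mor {a a' s c : Γ} (K : Cone D a) (K' : Cone D a') (h : a' * s = c * a) :
    ∃ μ : K.obj ⟶ K'.obj, K.inn ≫ μ = D.lam c ≫ K'.inn ∧
      μ ≫ K'.out = K.out ≫ (D.lam s)⟦(1 : ℤ)⟧' := by
  obtain ⟨μ, h1, h2⟩ := complete_distinguished_triangle_morphism _ _ K.dist K'.dist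
    (D.lam s) (D.lam c) (by
      change D.lam a ≫ D.lam c = D.lam s ≫ D.lam a'
      rw [← D.lam_mul, ← D.lam_mul, h])
  exact ⟨μ, h1, h2.symm⟩

theorem IsMor.comp {a a' a'' s s' : Γ} {K : Cone D a} {K' : Cone D a'} {K'' : Cone D a''}
    {μ : K.obj ⟶ K'.obj} {μ' : K'.obj ⟶ K''.obj} (h : IsMor K K' s μ) (h' : IsMor K' K'' s' μ') :
    IsMor K K'' (s' * s) (μ ≫ μ') := by
  obtain ⟨c, h1, h2, h3⟩ := h
  obtain ⟨c', h1', h2', h3'⟩ := h'
  refine ⟨c' * c, ?_, ?_, ?_⟩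
  · rw [← mul_assoc, h1', mul_assoc, h1, mul_assoc]
  · rw [reassoc_of% h2, h2', D.lam_mul, Category.assoc]
  · rw [Category.assoc, h3', reassoc_of% h3, D.lam_mul, Functor.map_comp]

theorem IsMor.kap {a a' s : Γ} (ha : a ≠ 0) (ha' : a' ≠ 0) (hs : s ∈ O.Sig) {K : Cone D a}
    {K' : Cone D a'} {μ : K.obj ⟶ K'.obj} (h : IsMor K K' s μ) (x : D.P' ⟶ K.obj) :
    kap O K' (x ≫ μ) = O.L s (kap O K x) := by
  obtain ⟨c, h1, h2, _⟩ := h
  obtain ⟨y, rfl⟩ := K.exists_lift x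
  rw [Category.assoc, h2, ← Category.assoc, kap_inn O ha', kap_inn O ha, D.eps_left, map_smul,
    O.L_inv s hs a a' c ha ha' h1, op_mul, mul_smul]

/-- common refinement -/
theorem refine {a b s : Γ} (ha : a ≠ 0) (hb : b ≠ 0) (hs : s ∈ O.Sig) (K : Cone D a)
    (K' : Cone D b) : ∃ (a' : Γ) (K'' : Cone D a') (μ : K.obj ⟶ K''.obj) (μ' : K'.obj ⟶ K''.obj),
      a' ≠ 0 ∧ IsMor K K'' s μ ∧ IsMor K' K'' 1 μ' := by
  obtain ⟨a', c, d, h0, h1, h2⟩ := O.ore s hs a b ha hb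
  obtain ⟨K''⟩ := exists_cone D a'
  obtain ⟨μ, h3, h4⟩ := exists_mor K K'' h1
  have h2' : a' * 1 = d * b := by rw [mul_one, h2]
  obtain ⟨μ', h5, h6⟩ := exists_mor K' K'' h2'
  exact ⟨a', K'', μ, μ', h0, ⟨c, h1, h3, h4⟩, ⟨d, h2', h5, h6⟩⟩

variable (D) in
/-- every linear map `Hom(P', Z) → I` is realised -/
def Surj (Z : C) : Prop :=
  ∀ ψ : (D.P' ⟶ Z) → O.I, IsLin O D Z ψ → ∃ s ∈ O.Sig, ∃ (a : Γ) (K : Cone D a) (f : Z ⟶ K.obj),
    a ≠ 0 ∧ ∀ x, O.L s (ψ x) = kap O K (x ≫ f)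

variable (D) in
/-- maps to a cofibre are detected in `I` -/
def Inj (Z : C) : Prop :=
  ∀ (a : Γ) (K : Cone D a) (f : Z ⟶ K.obj), a ≠ 0 → (∀ x : D.P' ⟶ Z, kap O K (x ≫ f) = 0) →
    ∃ s ∈ O.Sig, ∃ (a' : Γ) (K' : Cone D a') (μ : K.obj ⟶ K'.obj),
      a' ≠ 0 ∧ IsMor K K' s μ ∧ f ≫ μ = 0

variable {O}

theorem Surj.retract {Z Y : C} (h : Surj O D Y) (i : Z ⟶ Y) (r : Y ⟶ Z) (hir : i ≫ r = 𝟙 Z) :
    Surj O D Z := by
  intro ψ hψ
  obtain ⟨s, hs, a, K, f, ha, hf⟩ := h _ (hψ.comp r)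
  refine ⟨s, hs, a, K, i ≫ f, ha, fun x => ?_⟩
  have := hf (x ≫ i)
  rwa [Category.assoc, hir, Category.comp_id, Category.assoc] at this

theorem Inj.retract {Z Y : C} (h : Inj O D Y) (i : Z ⟶ Y) (r : Y ⟶ Z) (hir : i ≫ r = 𝟙 Z) :
    Inj O D Z := by
  intro a K f ha hf
  obtain ⟨s, hs, a', K', μ, ha', hμ, h0⟩ := h a K (r ≫ f) ha fun x => by
    rw [← Category.assoc]; exact hf _
  refine ⟨s, hs, a', K', μ, ha', hμ, ?_⟩
  rw [← Category.id_comp f, ← hir, Category.assoc, Category.assoc, ← Category.assoc r, h0,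
    comp_zero]

theorem surj_five {A Z' Z Z'' : C} {d : A ⟶ Z'} {i : Z' ⟶ Z} {π : Z ⟶ Z''} (hdi : d ≫ i = 0)
    (hy : ∀ (W : C) (f : Z' ⟶ W), d ≫ f = 0 → ∃ g : Z ⟶ W, f = i ≫ g)
    (hc : ∀ x : D.P' ⟶ Z, x ≫ π = 0 → ∃ y : D.P' ⟶ Z', x = y ≫ i)
    (hA : Inj O D A) (h' : Surj O D Z') (h'' : Surj O D Z'') : Surj O D Z := by
  intro ψ hψ
  obtain ⟨s, hs, a, K, f', ha, hf'⟩ := h' _ (hψ.comp i)
  obtain ⟨s', hs', a', K', μ, ha', hμ, h0⟩ := hA a K (d ≫ f') ha fun x => by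
    rw [← Category.assoc, ← hf', Category.assoc, hdi, comp_zero, hψ.zero, map_zero]
  obtain ⟨f, hf⟩ := hy _ (f' ≫ μ) (by rw [← Category.assoc, h0])
  have hχ := ((hψ.left s).left s').sub ((isLin_kap O ha' K').comp f)
  obtain ⟨ψ'', hψ'', he⟩ := hχ.extend π fun x hx => by
    obtain ⟨y, rfl⟩ := hc x hx
    rw [hf', Category.assoc, ← hf, ← Category.assoc, hμ.kap O ha ha' hs', sub_self]
  obtain ⟨s'', hs'', b, Kb, f'', hb, hf''⟩ := h'' _ hψ''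
  obtain ⟨e, Ke, μ₁, μ₂, he0, h1, h2⟩ := refine O ha' hb hs'' K' Kb
  refine ⟨s'' * (s' * s), mul_mem hs'' (mul_mem hs' hs), e, Ke, f ≫ μ₁ + π ≫ f'' ≫ μ₂, he0,
    fun x => ?_⟩
  rw [Preadditive.comp_add, kap_add O he0, ← Category.assoc, h1.kap O ha' he0 hs'',
    ← Category.assoc, ← Category.assoc, h2.kap O hb he0 (one_mem _), O.L_one, ← hf'', he,
    ← map_add, add_sub_cancel, O.L_mul _ hs'' _ (mul_mem hs' hs), O.L_mul _ hs' _ hs]

theorem inj_five {Z' Z Z'' A : C} {i : Z' ⟶ Z} {π : Z ⟶ Z''} {e : Z'' ⟶ A}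
    (hy : ∀ (W : C) (f : Z ⟶ W), i ≫ f = 0 → ∃ g : Z'' ⟶ W, f = π ≫ g)
    (hc : ∀ x : D.P' ⟶ Z'', x ≫ e = 0 → ∃ y : D.P' ⟶ Z, x = y ≫ π) (hπe : π ≫ e = 0)
    (h' : Inj O D Z') (h'' : Inj O D Z'') (hA : Surj O D A) : Inj O D Z := by
  intro a K f ha hf
  obtain ⟨s, hs, a', K', μ, ha', hμ, h0⟩ := h' a K (i ≫ f) ha fun x => by
    rw [← Category.assoc]; exact hf _
  obtain ⟨f'', hf''⟩ := hy _ (f ≫ μ) (by rw [← Category.assoc, h0])
  obtain ⟨ψ, hψ, he⟩ := ((isLin_kap O ha' K').comp f'').extend e fun x hx => by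
    obtain ⟨y, rfl⟩ := hc x hx
    rw [Category.assoc, ← hf'', ← Category.assoc, hμ.kap O ha ha' hs, hf, map_zero]
  obtain ⟨s', hs', b, Kb, g, hb, hg⟩ := hA _ hψ
  obtain ⟨c, Kc, μ₁, μ₂, hc0, h1, h2⟩ := refine O ha' hb hs' K' Kb
  obtain ⟨s'', hs'', a'', K'', μ₃, ha'', h3, h4⟩ := h'' c Kc (f'' ≫ μ₁ - e ≫ g ≫ μ₂) hc0
    fun x => by
      rw [Preadditive.comp_sub, kap_sub O hc0, ← Category.assoc, h1.kap O ha' hc0 hs',
        ← Category.assoc, ← Category.assoc, h2.kap O hb hc0 (one_mem _), O.L_one, ← hg, he,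
        sub_self]
  refine ⟨s'' * (s' * s), mul_mem hs'' (mul_mem hs' hs), a'', K'', (μ ≫ μ₁) ≫ μ₃, ha'',
    (hμ.comp h1).comp h3, ?_⟩
  rw [Preadditive.sub_comp, sub_eq_zero] at h4
  rw [Category.assoc, ← Category.assoc f, hf'', Category.assoc, ← Category.assoc f'', h4,
    Category.assoc, ← Category.assoc, hπe, zero_comp]

variable [NoZeroDivisors Γ]

theorem CellAx.surj {Z : C} (h : CellAx O D Z) : Surj O D Z := by
  intro ψ hψ
  rcases h.free with ⟨_, h0⟩ | ⟨ι, δ, hs₀, _, hH⟩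
  · have h1 : (1 : Γ) ≠ 0 := O.sig_ne 1 (one_mem _)
    obtain ⟨K⟩ := exists_cone D 1
    refine ⟨1, one_mem _, 1, K, 0, h1, fun x => ?_⟩
    rw [h0 x, hψ.zero, map_zero, comp_zero, kap_zero O h1]
  · obtain ⟨y, hy⟩ := O.rsurj _ hs₀ (ψ δ)
    obtain ⟨s, hs, a, γ, ha, hγ⟩ := O.gen y
    obtain ⟨K⟩ := exists_cone D a
    refine ⟨s, hs, a, K, ι ≫ D.lam γ ≫ K.inn, ha, fun x => ?_⟩
    have hl := (hψ.left s).sub ((isLin_kap O ha K).comp (ι ≫ D.lam γ ≫ K.inn))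
    have hδ : O.L s (ψ δ) - kap O K (δ ≫ ι ≫ D.lam γ ≫ K.inn) = 0 := by
      rw [← Category.assoc, ← Category.assoc, kap_inn O ha, D.eps_left, ← hy, map_smul, hγ,
        op_mul, mul_smul, sub_self]
    obtain ⟨t, ht, γ', hx⟩ := hH x
    have := hl.smul t x
    rw [hx, hl.smul, hδ, smul_zero] at this
    exact sub_eq_zero.1 (O.rinj t ht _ this.symm)

theorem CellAx.exists_inn {Z : C} (h : CellAx O D Z) {a : Γ} (ha : a ≠ 0) (K : Cone D a)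
    (f : Z ⟶ K.obj) : f ≫ K.out = 0 := by
  refine h.tf1 a ha _ ?_
  have : K.out ≫ (D.lam a)⟦(1 : ℤ)⟧' = 0 := comp_distTriang_mor_zero₃₁ _ K.dist
  rw [Category.assoc, this, comp_zero]

theorem CellAx.inj {Z : C} (h : CellAx O D Z) : Inj O D Z := by
  intro a K f ha hf
  obtain ⟨y, rfl⟩ : ∃ y : Z ⟶ D.P, f = y ≫ K.inn :=
    Triangle.coyoneda_exact₃ _ K.dist f (h.exists_inn ha K f)
  rcases h.free with ⟨h0, _⟩ | ⟨ι, δ, hs₀, hF, _⟩
  · obtain ⟨μ, h1, h2⟩ := exists_mor (s := 1) (c := 1) K K (by rw [mul_one, one_mul])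
    exact ⟨1, one_mem _, a, K, μ, ha, ⟨1, by rw [mul_one, one_mul], h1, h2⟩,
      by rw [h0 y, zero_comp, zero_comp]⟩
  · have h1 := hf δ
    rw [← Category.assoc, kap_inn O ha] at h1
    obtain ⟨s, hs, a', c, γ', ha', h2, h3⟩ := O.ker a _ ha h1
    obtain ⟨t, ht, γ₂, h4⟩ := O.sigOre _ hs₀ γ'
    obtain ⟨a'', c', _, ha'', h5, _⟩ := O.ore t ht a' a' ha' ha'
    obtain ⟨K''⟩ := exists_cone D a''
    have h6 : a'' * (t * s) = c' * c * a := by rw [← mul_assoc, h5, mul_assoc, h2, mul_assoc]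
    obtain ⟨μ, h7, h8⟩ := exists_mor K K'' h6
    refine ⟨t * s, mul_mem ht hs, a'', K'', μ, ha'', ⟨_, h6, h7, h8⟩, ?_⟩
    have hinj : ∀ z : Z ⟶ D.P, D.eps (δ ≫ z) = 0 → z = 0 := fun z hz => by
      obtain ⟨s₁, hs₁, γ₁, h9⟩ := hF z
      have h10 : γ₁ * D.eps (δ ≫ ι) = 0 := by
        rw [← D.eps_left, Category.assoc, ← h9, ← Category.assoc, D.eps_left, hz, mul_zero]
      have h11 : γ₁ = 0 := (mul_eq_zero.1 h10).resolve_right (O.sig_ne _ hs₀)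
      refine h.tf0 s₁ (O.sig_ne _ hs₁) z ?_
      rw [h9, h11, D.lam_zero, comp_zero]
    have key : y ≫ D.lam (c' * c) = ι ≫ D.lam γ₂ ≫ D.lam a'' := by
      rw [← sub_eq_zero]
      apply hinj
      rw [Preadditive.comp_sub, map_sub, ← Category.assoc, D.eps_left, ← Category.assoc,
        ← Category.assoc, D.eps_left, D.eps_left, mul_assoc c', h3, ← mul_assoc, ← h5, mul_assoc,
        h4, sub_self]
    have h13 : D.lam a'' ≫ K''.inn = 0 := comp_distTriang_mor_zero₁₂ _ K''.dist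
    rw [Category.assoc, h7, ← Category.assoc, key, Category.assoc, Category.assoc, h13, comp_zero,
      comp_zero]

variable (O D) in
/-- What is used about a cell. -/
structure GoodCell (Z : C) : Prop where
  surj : Surj O D Z
  inj : Inj O D Z
  tf1 : ∀ a, a ≠ 0 → ∀ x : Z ⟶ D.P⟦(1 : ℤ)⟧, x ≫ (D.lam a)⟦(1 : ℤ)⟧' = 0 → x = 0

theorem CellAx.good {Z : C} (h : CellAx O D Z) : GoodCell O D Z := ⟨h.surj, h.inj, h.tf1⟩

theorem GoodCell.retract {Z Y : C} (h : GoodCell O D Y) (i : Z ⟶ Y) (r : Y ⟶ Z)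
    (hir : i ≫ r = 𝟙 Z) : GoodCell O D Z :=
  ⟨h.surj.retract i r hir, h.inj.retract i r hir, fun a ha x hx => by
    rw [← Category.id_comp x, ← hir, Category.assoc,
      h.tf1 a ha (r ≫ x) (by rw [Category.assoc, hx, comp_zero]), comp_zero]⟩

theorem GoodCell.iso {Z Y : C} (h : GoodCell O D Y) (e : Z ≅ Y) : GoodCell O D Z :=
  h.retract e.hom e.inv e.hom_inv_id

theorem out_eq_zero {Z : C}
    (h : ∀ a, a ≠ 0 → ∀ x : Z ⟶ D.P⟦(1 : ℤ)⟧, x ≫ (D.lam a)⟦(1 : ℤ)⟧' = 0 → x = 0) {a : Γ}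
    (ha : a ≠ 0) (K : Cone D a) (f : Z ⟶ K.obj) : f ≫ K.out = 0 := by
  refine h a ha _ ?_
  have : K.out ≫ (D.lam a)⟦(1 : ℤ)⟧' = 0 := comp_distTriang_mor_zero₃₁ _ K.dist
  rw [Category.assoc, this, comp_zero]

/-- common refinement of finitely many elements of `I` -/
theorem OreData.gen_fin (O : OreData Γ) {κ : Type*} (t : Finset κ) (x : κ → O.I) :
    ∃ s ∈ O.Sig, ∃ (a : Γ) (γ : κ → Γ), a ≠ 0 ∧ ∀ j ∈ t, O.L s (x j) = op (γ j) • O.inv a := by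
  classical
  induction t using Finset.induction_on with
  | empty => exact ⟨1, one_mem _, 1, fun _ => 0, O.sig_ne 1 (one_mem _), fun _ h => by simp at h⟩
  | insert j t hj ih =>
    obtain ⟨s, hs, a, γ, ha, h⟩ := ih
    obtain ⟨s', hs', b, β, hb, h'⟩ := O.gen (O.L s (x j))
    obtain ⟨a', c, d, ha', h1, h2⟩ := O.ore s' hs' a b ha hb
    refine ⟨s' * s, mul_mem hs' hs, a', fun l => if l = j then d * β else c * γ l, ha',
      fun l hl => ?_⟩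
    rw [O.L_mul _ hs' _ hs]
    beta_reduce
    by_cases hl' : l = j
    · subst hl'
      have := O.L_inv 1 (one_mem _) b a' d hb ha' (by rw [mul_one, h2])
      rw [O.L_one] at this
      rw [h', if_pos rfl, this, op_mul, mul_smul]
    · rw [h l ((Finset.mem_insert.1 hl).resolve_left hl'), if_neg hl', map_smul,
        O.L_inv s' hs' a a' c ha ha' h1, op_mul, mul_smul]

theorem OreData.ker_fin (O : OreData Γ) {κ : Type*} (t : Finset κ) {a : Γ} (ha : a ≠ 0)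
    (γ : κ → Γ) (h : ∀ j ∈ t, op (γ j) • O.inv a = 0) :
    ∃ s ∈ O.Sig, ∃ (a' c : Γ) (γ' : κ → Γ), a' ≠ 0 ∧ a' * s = c * a ∧
      ∀ j ∈ t, c * γ j = a' * γ' j := by
  classical
  induction t using Finset.induction_on with
  | empty => exact ⟨1, one_mem _, a, 1, fun _ => 0, ha, by simp, fun _ h => by simp at h⟩
  | insert j t hj ih =>
    obtain ⟨s, hs, a', c, γ', ha', h1, h2⟩ := ih fun l hl => h l (Finset.mem_insert_of_mem hl)
    have h3 : op (c * γ j) • O.inv a' = 0 := by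
      rw [op_mul, mul_smul, ← O.L_inv s hs a a' c ha ha' h1, ← map_smul,
        h j (Finset.mem_insert_self _ _), map_zero]
    obtain ⟨s', hs', a'', c', β, ha'', h4, h5⟩ := O.ker a' _ ha' h3
    refine ⟨s' * s, mul_mem hs' hs, a'', c' * c, fun l => if l = j then β else s' * γ' l, ha'',
      by rw [← mul_assoc, h4, mul_assoc, h1, mul_assoc], fun l hl => ?_⟩
    beta_reduce
    by_cases hl' : l = j
    · subst hl'
      rw [if_pos rfl, mul_assoc, h5]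
    · rw [if_neg hl', mul_assoc, h2 l ((Finset.mem_insert.1 hl).resolve_left hl'), ← mul_assoc,
        ← h4, mul_assoc]

/-- Cells of finite rank with dual bases (`κ` may be empty). -/
theorem goodCell_of_bases {Z : C} {κ : Type*} [Fintype κ] [DecidableEq κ] (ι : κ → (Z ⟶ D.P))
    (δ : κ → (D.P' ⟶ Z)) (hd : ∀ j l, D.eps (δ j ≫ ι l) = if j = l then 1 else 0)
    (hF : ∀ f : Z ⟶ D.P, ∃ γ : κ → Γ, f = ∑ j, ι j ≫ D.lam (γ j))
    (hH : ∀ h : D.P' ⟶ Z, ∃ γ : κ → Γ, h = ∑ j, D.lam' (γ j) ≫ δ j)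
    (tf1 : ∀ a, a ≠ 0 → ∀ x : Z ⟶ D.P⟦(1 : ℤ)⟧, x ≫ (D.lam a)⟦(1 : ℤ)⟧' = 0 → x = 0) :
    GoodCell O D Z := by
  have hp : ∀ (γ : κ → Γ) (j : κ), D.eps (δ j ≫ ∑ l, ι l ≫ D.lam (γ l)) = γ j := fun γ j => by
    rw [Preadditive.comp_sum, map_sum]
    simp only [← Category.assoc, D.eps_left, hd]
    simp
  refine ⟨fun ψ hψ => ?_, fun a K f ha hf => ?_, tf1⟩
  · obtain ⟨s, hs, a, γ, ha, h⟩ := O.gen_fin Finset.univ fun j => ψ (δ j)
    obtain ⟨K⟩ := exists_cone D a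
    refine ⟨s, hs, a, K, (∑ l, ι l ≫ D.lam (γ l)) ≫ K.inn, ha, fun x => ?_⟩
    have hl := (hψ.left s).sub ((isLin_kap O ha K).comp ((∑ l, ι l ≫ D.lam (γ l)) ≫ K.inn))
    obtain ⟨β, rfl⟩ := hH x
    rw [← sub_eq_zero]
    refine (map_sum hl.toLin (fun j => D.lam' (β j) ≫ δ j) Finset.univ).trans
      (Finset.sum_eq_zero fun j _ => (hl.smul _ _).trans ?_)
    rw [← Category.assoc, kap_inn O ha, hp, h j (Finset.mem_univ _), sub_self, smul_zero]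
  · obtain ⟨y, rfl⟩ : ∃ y : Z ⟶ D.P, f = y ≫ K.inn :=
      Triangle.coyoneda_exact₃ _ K.dist f (out_eq_zero tf1 ha K f)
    obtain ⟨γ, rfl⟩ := hF y
    obtain ⟨s, hs, a', c, γ', ha', h1, h2⟩ := O.ker_fin Finset.univ ha γ fun j _ => by
      have := hf (δ j)
      rwa [← Category.assoc, kap_inn O ha, hp] at this
    obtain ⟨K'⟩ := exists_cone D a'
    obtain ⟨μ, h7, h8⟩ := exists_mor K K' h1
    refine ⟨s, hs, a', K', μ, ha', ⟨_, h1, h7, h8⟩, ?_⟩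
    have h13 : D.lam a' ≫ K'.inn = 0 := comp_distTriang_mor_zero₁₂ _ K'.dist
    rw [Category.assoc, h7, Preadditive.sum_comp]
    refine Finset.sum_eq_zero fun j _ => ?_
    rw [Category.assoc, ← Category.assoc (D.lam _), ← D.lam_mul, h2 j (Finset.mem_univ _),
      D.lam_mul, Category.assoc, h13, comp_zero, comp_zero]

end Vale.Agent.P221X.NM
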