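import Vale.Agent.P221X.NM.Cells

/-!
# P221, non-membership: the main theorem

`Γ` acts on the additive group `V`, which contains subgroups `W` (discrete) and `Q` (compact) with
finite intersection. `X` has maps `xh i : L_h X ⟶ C_θ` to cofibres of `θ` on the objects `P_i`.
-/

open CategoryTheory Limits Pretriangulated MulOpposite

set_option linter.unusedSectionVars false

universe v u w

namespace Vale.Agent.P221X.NM

variable {C : Type u} [Category.{v} C] [Preadditive C] [HasShift C ℤ] [HasZeroObject C]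
  [∀ n : ℤ, (shiftFunctor C n).Additive] [Pretriangulated C] {Γ : Type w} [Ring Γ]

/-- Non-membership from an abstract linking property. -/
theorem not_thick_of_link [NoZeroDivisors Γ] [IsTriangulated C] {O : OreData Γ} {θ : Γ}
    (hθ : θ ≠ 0) {B X : C} {F : C ⥤ C} (hF : Ex F) {ι : Type*} (D : ι → TriData C Γ)
    (K : ∀ i, Cone (D i) θ) (cell : ∀ i (k : ℤ), GoodCell O (D i) (F.obj (B⟦k⟧)))
    (xh : ∀ i, F.obj X ⟶ (K i).obj)
    (link : ∀ (Z : C) (g : Z ⟶ X), Cell B Z →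
      (∀ i, ∃ s ∈ O.Sig, F.map g ≫ xh i ≫ (K i).out ≫ ((D i).lam s)⟦(1 : ℤ)⟧' = 0) →
      ∀ i (h : (D i).P' ⟶ F.obj Z), kap O (K i) (h ≫ F.map g ≫ xh i) = 0)
    (nonzero : ∃ (i : ι) (h : (D i).P' ⟶ F.obj X), kap O (K i) (h ≫ xh i) ≠ 0) :
    ¬ Thick B X := by
  have key : ∀ Z, Cell B Z → ∀ (g : Z ⟶ X) i (h : (D i).P' ⟶ F.obj Z),
      kap O (K i) (h ≫ F.map g ≫ xh i) = 0 := by
    intro Z hZ
    induction hZ with
    | zero h =>
      intro g i hh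
      rw [(hF.isZero h).eq_of_tgt hh 0, zero_comp, kap_zero O hθ]
    | @step Z' Z k j π d hZ' hT ih =>
      intro g
      refine link Z g (.step hZ' hT) fun i => ?_
      obtain ⟨s, hs, a', K', μ, ha', ⟨c, _, _, hμ⟩, h0⟩ := (hZ'.surj_inj hF (cell i)).2 θ (K i)
        (F.map (j ≫ g) ≫ xh i) hθ (ih (j ≫ g) i)
      obtain ⟨f, hf⟩ : ∃ f : F.obj (B⟦k⟧) ⟶ K'.obj, (F.map g ≫ xh i) ≫ μ = F.map π ≫ f :=
        hF.contra _ hT _ _ (by
          change F.map j ≫ _ = 0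
          rw [← h0, F.map_comp]; simp only [Category.assoc])
      refine ⟨s, hs, ?_⟩
      rw [← hμ, ← Category.assoc, ← Category.assoc, hf, Category.assoc,
        out_eq_zero (cell i k).tf1 ha' K' f, comp_zero]
  intro h
  obtain ⟨Z, j, r, hZ, hjr⟩ := h.exists_cell
  obtain ⟨i, hh, hne⟩ := nonzero
  have := key Z hZ r i (hh ≫ F.map j)
  rw [Category.assoc, ← Category.assoc (F.map j), ← F.map_comp, hjr, F.map_id,
    Category.id_comp] at this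
  exact hne this

/-- All the data of the non-membership theorem. -/
structure Data (O : OreData Γ) (θ : Γ) (V : Type*) [AddCommGroup V] [Module Γ V] (B X : C)
    (Lh Le : C ⥤ C) (ηh : 𝟭 C ⟶ Lh) (ηe : 𝟭 C ⟶ Le) (ι : Type*) where
  exh : Ex Lh
  exe : Ex Le
  exhe : Ex (Lh ⋙ Le)
  /-- the summand which is glued to the summand `i` -/
  succ : ι → ι
  D : ι → TriData C Γ
  K : ∀ i, Cone (D i) θ
  /-- test objects (shifts of the Moore spectrum) -/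
  M : ι → C
  cell : ∀ i (k : ℤ), GoodCell O (D i) (Lh.obj (B⟦k⟧))
  lat : ∀ i (k : ℤ), FinKer (frac ηh ηe (M i) (B⟦k⟧)) ∧ FinCoker (frac ηh ηe (M i) (B⟦k⟧))
  xh : ∀ i, Lh.obj X ⟶ (K i).obj
  W : AddSubgroup V
  Q : AddSubgroup V
  /-- the projection to `Q` along `W` is well defined up to finitely many values -/
  WQ : {v | v ∈ W ∧ v ∈ Q}.Finite
  /-- `ρ₀` on the cokernel of `θ` on `V` -/
  rho : ∀ i, (M i ⟶ Le.obj (K i).obj) →+ V
  rho_mem : ∀ i x, rho i x ∈ Q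
  rho_compact : ∀ i, (Set.range fun x : M i ⟶ (K i).obj => rho i (x ≫ ηe.app _)).Finite
  /-- the identification of `[M_i, L_e P_{i+1}⟦1⟧]` with `V` -/
  nu : ∀ i, (M i ⟶ Le.obj ((D (succ i)).P⟦(1 : ℤ)⟧)) →+ V
  nu_lam : ∀ i x a, nu i (x ≫ Le.map (((D (succ i)).lam a)⟦(1 : ℤ)⟧')) = a • nu i x
  /-- the twisted lattice -/
  glue : ∀ i (x : M i ⟶ Le.obj X),
    nu i (x ≫ Le.map (ηh.app X ≫ xh (succ i) ≫ (K (succ i)).out)) -
      rho i (x ≫ Le.map (ηh.app X ≫ xh i)) ∈ W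
  rigA : ∀ i (h : (D i).P' ⟶ Lh.obj X) (y : (D i).P' ⟶ (D i).P), h ≫ xh i = y ≫ (K i).inn →
    op ((D i).eps y) • O.inv θ ≠ 0 →
    (Set.range fun x : M i ⟶ Le.obj (D i).P' => rho i (x ≫ Le.map (y ≫ (K i).inn))).Infinite
  rigB : ∀ s ∈ O.Sig, {v : V | θ • v = 0 ∧ s • v = 0}.Finite
  nonzero : ∃ (i : ι) (h : (D i).P' ⟶ Lh.obj X) (y : (D i).P' ⟶ (D i).P),
    h ≫ xh i = y ≫ (K i).inn ∧ op ((D i).eps y) • O.inv θ ≠ 0

variable [NoZeroDivisors Γ] {O : OreData Γ} {θ : Γ} {V : Type*} [AddCommGroup V] [Module Γ V]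
  {B X : C} {Lh Le : C ⥤ C} {ηh : 𝟭 C ⟶ Lh} {ηe : 𝟭 C ⟶ Le} {ι : Type*}
  (E : Data O θ V B X Lh Le ηh ηe ι)

namespace Data

/-- `g` induces zero in `I` -/
def P1 {Z : C} (g : Z ⟶ X) : Prop :=
  ∀ i (h : (E.D i).P' ⟶ Lh.obj Z), kap O (E.K i) (h ≫ Lh.map g ≫ E.xh i) = 0

/-- the top components of `g` are torsion -/
def P2 {Z : C} (g : Z ⟶ X) : Prop :=
  ∀ i, ∃ s ∈ O.Sig, Lh.map g ≫ E.xh i ≫ (E.K i).out ≫ ((E.D i).lam s)⟦(1 : ℤ)⟧' = 0

theorem finite_proj {F : Set V} (hF : F.Finite) :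
    {q | q ∈ E.Q ∧ ∃ f ∈ F, f - q ∈ E.W}.Finite := by
  refine (hF.biUnion (t := fun f => {q | q ∈ E.Q ∧ f - q ∈ E.W}) fun f _ => ?_).subset ?_
  · by_cases h : ∃ q, q ∈ E.Q ∧ f - q ∈ E.W
    · obtain ⟨q₀, h₀, h₀'⟩ := h
      refine (E.WQ.image fun v => q₀ + v).subset fun q hq => ⟨q - q₀, ⟨?_, sub_mem hq.1 h₀⟩, ?_⟩
      · have := sub_mem h₀' hq.2
        rwa [sub_sub_sub_cancel_left] at this
      · simp
    · exact Set.finite_empty.subset fun q hq => h ⟨q, hq⟩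
  · rintro q ⟨hq, f, hf, h⟩
    exact Set.mem_biUnion hf ⟨hq, h⟩

theorem p1_of_p2 (hθ : θ ≠ 0) {Z : C} (hZ : Cell B Z) (g : Z ⟶ X) (h : E.P2 g) : E.P1 g := by
  intro i hh
  by_contra hne
  obtain ⟨y, hy⟩ := (E.K i).exists_lift (hh ≫ Lh.map g ≫ E.xh i)
  rw [hy, kap_inn O hθ] at hne
  refine E.rigA i (hh ≫ Lh.map g) y (by rw [Category.assoc, hy]) hne ?_
  obtain ⟨s, hs, h2⟩ := h (E.succ i)
  have hc := (hZ.lattice ηh ηe E.exh E.exe E.exhe (E.M i) (E.lat i)).2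
  let ρ : (E.M i ⟶ Le.obj (Lh.obj Z)) →+ V :=
    (E.rho i).comp (post (E.M i) (Le.map (Lh.map g ≫ E.xh i)))
  have hn : ∀ {Y : C} (t : Lh.obj X ⟶ Y), ηh.app Z ≫ Lh.map g ≫ t = g ≫ ηh.app X ≫ t :=
    fun t => by
      have : g ≫ ηh.app X = ηh.app Z ≫ Lh.map g := ηh.naturality g
      rw [← Category.assoc, ← this, Category.assoc]
  have hfin : (Set.range ρ).Finite := by
    refine hc.finite_range ρ ?_
    refine (((E.finite_proj (E.rigB s hs)).prod (E.rho_compact i)).image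
      fun z => z.1 + z.2).subset ?_
    rintro _ ⟨⟨x, q⟩, rfl⟩
    refine ⟨(E.rho i ((x ≫ Le.map g) ≫ Le.map (ηh.app X ≫ E.xh i)),
      E.rho i ((q ≫ Lh.map g ≫ E.xh i) ≫ ηe.app _)),
      ⟨⟨E.rho_mem _ _, _, ⟨?_, ?_⟩, E.glue i (x ≫ Le.map g)⟩, _, rfl⟩, ?_⟩
    · have h0 : (E.K (E.succ i)).out ≫ ((E.D (E.succ i)).lam θ)⟦(1 : ℤ)⟧' = 0 :=
        comp_distTriang_mor_zero₃₁ _ (E.K (E.succ i)).dist
      rw [← E.nu_lam]
      simp only [Category.assoc, ← Le.map_comp]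
      rw [h0, comp_zero, comp_zero, comp_zero, E.exe.map_zero, comp_zero, map_zero]
    · rw [← E.nu_lam]
      simp only [Category.assoc, ← Le.map_comp]
      rw [← hn, h2, comp_zero, E.exe.map_zero, comp_zero, map_zero]
    · have h4 : (Lh.map g ≫ E.xh i) ≫ ηe.app _ = ηe.app _ ≫ Le.map (Lh.map g ≫ E.xh i) :=
        ηe.naturality _
      change _ = E.rho i (frac ηh ηe (E.M i) Z (x, q) ≫ Le.map (Lh.map g ≫ E.xh i))
      rw [frac_apply, Preadditive.add_comp, map_add]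
      simp only [Category.assoc, ← Le.map_comp]
      rw [hn, ← h4, Category.assoc]
  refine hfin.subset ?_
  rintro _ ⟨x, rfl⟩
  refine ⟨x ≫ Le.map hh, ?_⟩
  change E.rho i ((x ≫ Le.map hh) ≫ Le.map (Lh.map g ≫ E.xh i)) = _
  rw [Category.assoc, ← Le.map_comp, hy]

end Data

/-- The non-membership theorem. -/
theorem Data.not_thick [IsTriangulated C] (E : Data O θ V B X Lh Le ηh ηe ι) (hθ : θ ≠ 0) :
    ¬ Thick B X := by
  obtain ⟨i, hh, y, hy, hne⟩ := E.nonzero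
  exact not_thick_of_link hθ E.exh E.D E.K E.cell E.xh (fun Z g hZ h => E.p1_of_p2 hθ hZ g h)
    ⟨i, hh, by rwa [hy, kap_inn O hθ]⟩

end Vale.Agent.P221X.NM
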