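import Vale.Agent.P221X.NM.Shift

/-!
# P221, non-membership: the cofibre of a central regular endomorphism

`EnD C AA` : an object `E` with endomorphism ring `AA`, a central regular `T ∈ AA`, a class
`β : E ⟶ E⟦1⟧` and a periodicity.  `A = cof T`, `P' = fib (T on E⟦-1⟧)`.
-/

open CategoryTheory Limits Pretriangulated MulOpposite

set_option linter.unusedSectionVars false

universe v u w

namespace Vale.Agent.P221X.NM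

variable {C : Type u} [Category.{v} C] [Preadditive C] [HasShift C ℤ] [HasZeroObject C]
  [∀ n : ℤ, (shiftFunctor C n).Additive] [Pretriangulated C]

/-- all maps vanish -/
def HZ (X Y : C) : Prop := ∀ f : X ⟶ Y, f = 0

theorem HZ.iso {X Y X' Y' : C} (h : HZ X Y) (e : X ≅ X') (e' : Y ≅ Y') : HZ X' Y' := fun f => by
  rw [← cancel_epi e.hom, ← cancel_mono e'.inv, Category.assoc, h (e.hom ≫ f ≫ e'.inv)]
  simp

theorem HZ.shift {X Y : C} (h : HZ X Y) (n : ℤ) : HZ (X⟦n⟧) (Y⟦n⟧) := fun f => by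
  obtain ⟨g, rfl⟩ := (shiftFunctor C n).map_surjective f
  rw [h g, Functor.map_zero]

theorem HZ.unshift {X Y : C} (n : ℤ) (h : HZ (X⟦n⟧) (Y⟦n⟧)) : HZ X Y := fun f =>
  (shiftFunctor C n).map_injective (by rw [h (f⟦n⟧'), Functor.map_zero])

/-- `X⟦a⟧⟦b⟧ ≅ X⟦c⟧` -/
noncomputable def shAdd (X : C) (a b c : ℤ) (h : a + b = c) : X⟦a⟧⟦b⟧ ≅ X⟦c⟧ :=
  ((shiftFunctorAdd' C a b c h).app X).symm

/-- `X⟦0⟧ ≅ X` -/
noncomputable def shZero (X : C) : X⟦(0 : ℤ)⟧ ≅ X := (shiftFunctorZero C ℤ).app X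

/-- `X⟦1⟧⟦-1⟧ ≅ X` -/
noncomputable def upDn : shiftFunctor C (1 : ℤ) ⋙ shiftFunctor C (-1 : ℤ) ≅ 𝟭 C :=
  shiftFunctorCompIsoId C 1 (-1) (add_neg_cancel 1)

/-- the adjoint of a map `X ⟶ Y⟦1⟧` -/
noncomputable def dn {X Y : C} (f : X ⟶ Y⟦(1 : ℤ)⟧) : X⟦(-1 : ℤ)⟧ ⟶ Y :=
  f⟦(-1 : ℤ)⟧' ≫ upDn.hom.app Y

theorem dn_comp {X Y Y' : C} (f : X ⟶ Y⟦(1 : ℤ)⟧) (g : Y ⟶ Y') :
    dn (f ≫ g⟦(1 : ℤ)⟧') = dn f ≫ g := by
  have := (upDn (C := C)).hom.naturality g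
  simp only [Functor.comp_map, Functor.id_map] at this
  simp only [dn, Functor.map_comp, Category.assoc]
  exact congrArg (f⟦(-1 : ℤ)⟧' ≫ ·) this

theorem comp_dn {X X' Y : C} (g : X' ⟶ X) (f : X ⟶ Y⟦(1 : ℤ)⟧) :
    dn (g ≫ f) = g⟦(-1 : ℤ)⟧' ≫ dn f := by
  simp only [dn, Functor.map_comp, Category.assoc]

theorem dn_zero (X Y : C) : dn (0 : X ⟶ Y⟦(1 : ℤ)⟧) = 0 := by
  simp only [dn, Functor.map_zero, zero_comp]

theorem dn_injective {X Y : C} : Function.Injective (dn : (X ⟶ Y⟦(1 : ℤ)⟧) → _) := fun _ _ h =>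
  (shiftFunctor C (-1 : ℤ)).map_injective ((cancel_mono (upDn.hom.app Y)).1 h)

theorem dn_surjective {X Y : C} : Function.Surjective (dn : (X ⟶ Y⟦(1 : ℤ)⟧) → _) := fun g => by
  obtain ⟨f, hf⟩ := (shiftFunctor C (-1 : ℤ)).map_surjective (g ≫ upDn.inv.app Y)
  refine ⟨f, ?_⟩
  rw [dn, hf, Category.assoc, Iso.inv_hom_id_app]
  exact Category.comp_id g

variable (C) in
/-- An object `E` with endomorphism ring `AA`, and the cofibre `A` of `T ∈ AA`. -/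
structure EnD (AA : Type w) [Ring AA] where
  E : C
  lam : AA → (E ⟶ E)
  lam_one : lam 1 = 𝟙 E
  lam_mul : ∀ a b, lam (a * b) = lam b ≫ lam a
  lam_add : ∀ a b, lam (a + b) = lam a + lam b
  lam_bij : Function.Bijective lam
  T : AA
  T_comm : ∀ a, T * a = a * T
  T_reg : ∀ a, T * a = 0 → a = 0
  beta : E ⟶ E⟦(1 : ℤ)⟧
  beta_comm : ∀ a, lam a ≫ beta = beta ≫ (lam a)⟦(1 : ℤ)⟧'
  beta_bij : Function.Bijective fun a => lam a ≫ beta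
  q : ℤ
  q_ge : 5 ≤ q
  per : E⟦q⟧ ≅ E
  van : ∀ j : ℤ, ¬ q ∣ j → ¬ q ∣ j - 1 → ∀ f : E ⟶ E⟦j⟧, f = 0
  A : C
  inn : E ⟶ A
  out : A ⟶ E⟦(1 : ℤ)⟧
  dist : Triangle.mk (lam T) inn out ∈ distTriang C

namespace EnD

variable {AA : Type w} [Ring AA] (D : EnD C AA)

theorem lam_zero : D.lam 0 = 0 := by
  have := D.lam_add 0 0
  rw [add_zero] at this
  exact left_eq_add.1 this

theorem lam_sub (a b : AA) : D.lam (a - b) = D.lam a - D.lam b := by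
  rw [eq_sub_iff_add_eq, ← D.lam_add, sub_add_cancel]

theorem hz (a b : ℤ) (h : ¬ D.q ∣ b - a) (h' : ¬ D.q ∣ b - a - 1) : HZ (D.E⟦a⟧) (D.E⟦b⟧) :=
  (HZ.shift (D.van (b - a) h h') a).iso (Iso.refl _) (shAdd _ _ _ _ (sub_add_cancel b a))

theorem not_dvd {j : ℤ} (h0 : j ≠ 0) (h1 : -5 < j) (h2 : j < 5) : ¬ D.q ∣ j := fun h => by
  have := D.q_ge
  have h3 := Int.le_abs_of_dvd h0 h
  have : |j| < 5 := abs_lt.2 ⟨h1, h2⟩
  omega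

theorem hz' (a b : ℤ) (h0 : b - a ≠ 0) (h1 : b - a - 1 ≠ 0)
    (h2 : -4 < b - a) (h3 : b - a < 5) : HZ (D.E⟦a⟧) (D.E⟦b⟧) :=
  D.hz a b (D.not_dvd h0 (by omega) h3) (D.not_dvd h1 (by omega) (by omega))

theorem per_nat (j : ℤ) (n : ℕ) : Nonempty (D.E⟦j + D.q * n⟧ ≅ D.E⟦j⟧) := by
  induction n with
  | zero => exact ⟨eqToIso (by simp)⟩
  | succ n ih =>
    obtain ⟨e⟩ := ih
    exact ⟨(shAdd D.E D.q (j + D.q * n) _ (by push_cast; ring)).symm ≪≫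
      (shiftFunctor C _).mapIso D.per ≪≫ e⟩

theorem per_dvd {a b : ℤ} (h : D.q ∣ a - b) : Nonempty (D.E⟦a⟧ ≅ D.E⟦b⟧) := by
  obtain ⟨c, hc⟩ := h
  obtain ⟨n, rfl | rfl⟩ := c.eq_nat_or_neg
  · rw [show a = b + D.q * n by omega]
    exact D.per_nat b n
  · rw [show b = a + D.q * n by rw [mul_neg] at hc; omega]
    exact ⟨(D.per_nat a n).some.symm⟩

/-! ### regularity of `T` -/

theorem reg0 (f : D.E ⟶ D.E) (h : f ≫ D.lam D.T = 0) : f = 0 := by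
  obtain ⟨a, rfl⟩ := D.lam_bij.2 f
  rw [← D.lam_mul, ← D.lam_zero] at h
  rw [D.T_reg a (D.lam_bij.1 h), D.lam_zero]

theorem reg0' (f : D.E ⟶ D.E) (h : D.lam D.T ≫ f = 0) : f = 0 := by
  obtain ⟨a, rfl⟩ := D.lam_bij.2 f
  rw [← D.lam_mul, ← D.T_comm, D.lam_mul] at h
  exact D.reg0 _ h

theorem reg1' (f : D.E ⟶ D.E⟦(1 : ℤ)⟧) (h : D.lam D.T ≫ f = 0) : f = 0 := by
  obtain ⟨a, rfl⟩ := D.beta_bij.2 f
  have h1 : D.lam (a * D.T) ≫ D.beta = D.lam 0 ≫ D.beta := by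
    rw [D.lam_mul, Category.assoc, D.lam_zero, zero_comp]; exact h
  have h2 := D.beta_bij.1 h1
  rw [← D.T_comm] at h2
  simp only [D.T_reg a h2, D.lam_zero, zero_comp]

theorem reg1 (f : D.E ⟶ D.E⟦(1 : ℤ)⟧) (h : f ≫ (D.lam D.T)⟦(1 : ℤ)⟧' = 0) : f = 0 := by
  refine D.reg1' f ?_
  obtain ⟨a, rfl⟩ := D.beta_bij.2 f
  simp only at h ⊢
  rwa [Category.assoc, ← D.beta_comm, ← Category.assoc, ← D.lam_mul, D.T_comm, D.lam_mul,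
    Category.assoc] at h

/-! ### the action on `A` -/

theorem T_inn : D.lam D.T ≫ D.inn = 0 := comp_distTriang_mor_zero₁₂ _ D.dist

theorem hz_one_A : HZ (D.E⟦(1 : ℤ)⟧) D.A := fun f => by
  have h1 : f ≫ D.out = 0 := by
    obtain ⟨g, hg⟩ := (shiftFunctor C (1 : ℤ)).map_surjective (f ≫ D.out)
    have h2 : D.out ≫ (D.lam D.T)⟦(1 : ℤ)⟧' = 0 := comp_distTriang_mor_zero₃₁ _ D.dist
    have h3 : g ≫ D.lam D.T = 0 := (shiftFunctor C (1 : ℤ)).map_injective (by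
      rw [Functor.map_comp, hg, Category.assoc, h2, comp_zero, Functor.map_zero])
    rw [← hg, D.reg0 g h3, Functor.map_zero]
  obtain ⟨g, rfl⟩ : ∃ g : D.E⟦(1 : ℤ)⟧ ⟶ D.E, f = g ≫ D.inn :=
    Triangle.coyoneda_exact₃ _ D.dist f h1
  rw [(D.hz' 1 0 (by omega) (by omega) (by omega) (by omega)).iso (Iso.refl _) (shZero _) g, zero_comp]

theorem ext_inn {f g : D.A ⟶ D.A} (h : D.inn ≫ f = D.inn ≫ g) : f = g := by
  obtain ⟨k, hk⟩ : ∃ k : D.E⟦(1 : ℤ)⟧ ⟶ D.A, f - g = D.out ≫ k :=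
    Triangle.yoneda_exact₃ _ D.dist (f - g) (by
      change D.inn ≫ (f - g) = 0
      rw [Preadditive.comp_sub, h, sub_self])
  rw [← sub_eq_zero, hk, D.hz_one_A k, comp_zero]

theorem exists_act (a : AA) : ∃ c : D.A ⟶ D.A, D.inn ≫ c = D.lam a ≫ D.inn ∧
    D.out ≫ (D.lam a)⟦(1 : ℤ)⟧' = c ≫ D.out :=
  complete_distinguished_triangle_morphism _ _ D.dist D.dist (D.lam a) (D.lam a) (by
    change D.lam D.T ≫ D.lam a = D.lam a ≫ D.lam D.T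
    rw [← D.lam_mul, ← D.lam_mul, D.T_comm])

/-- the action of `AA` on `A` -/
noncomputable def act (a : AA) : D.A ⟶ D.A := (D.exists_act a).choose

@[reassoc] theorem inn_act (a : AA) : D.inn ≫ D.act a = D.lam a ≫ D.inn :=
  (D.exists_act a).choose_spec.1

@[reassoc] theorem act_out (a : AA) : D.act a ≫ D.out = D.out ≫ (D.lam a)⟦(1 : ℤ)⟧' :=
  (D.exists_act a).choose_spec.2.symm

theorem act_one : D.act 1 = 𝟙 _ := D.ext_inn (by simp [D.inn_act, D.lam_one])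

theorem act_zero : D.act 0 = 0 := D.ext_inn (by simp [D.inn_act, D.lam_zero])

theorem act_mul (a b : AA) : D.act (a * b) = D.act b ≫ D.act a :=
  D.ext_inn (by simp [D.inn_act, D.inn_act_assoc, D.lam_mul])

theorem act_add (a b : AA) : D.act (a + b) = D.act a + D.act b :=
  D.ext_inn (by simp [D.inn_act, D.lam_add])

theorem act_sub (a b : AA) : D.act (a - b) = D.act a - D.act b :=
  D.ext_inn (by simp [D.inn_act, D.lam_sub])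

theorem act_sum {κ : Type*} (s : Finset κ) (a : κ → AA) :
    D.act (∑ k ∈ s, a k) = ∑ k ∈ s, D.act (a k) :=
  map_sum (AddMonoidHom.mk' D.act D.act_add) a s

theorem act_T_mul (a : AA) : D.act (D.T * a) = 0 :=
  D.ext_inn (by rw [D.inn_act, D.lam_mul, Category.assoc, D.T_inn, comp_zero, comp_zero])

theorem hom_E_A (f : D.E ⟶ D.A) : ∃ a, f = D.inn ≫ D.act a := by
  have h2 : D.out ≫ (D.lam D.T)⟦(1 : ℤ)⟧' = 0 := comp_distTriang_mor_zero₃₁ _ D.dist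
  obtain ⟨g, rfl⟩ : ∃ g : D.E ⟶ D.E, f = g ≫ D.inn :=
    Triangle.coyoneda_exact₃ _ D.dist f (D.reg1 (f ≫ D.out) (by rw [Category.assoc, h2, comp_zero]))
  obtain ⟨a, rfl⟩ := D.lam_bij.2 g
  exact ⟨a, (D.inn_act a).symm⟩

theorem act_surjective : Function.Surjective D.act := fun f => by
  obtain ⟨a, ha⟩ := D.hom_E_A (D.inn ≫ f)
  exact ⟨a, D.ext_inn ha.symm⟩

theorem inn_act_eq_zero {a : AA} (h : D.inn ≫ D.act a = 0) : ∃ c, a = D.T * c := by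
  rw [D.inn_act] at h
  obtain ⟨g, hg⟩ : ∃ g : D.E ⟶ D.E, D.lam a = g ≫ D.lam D.T :=
    Triangle.coyoneda_exact₂ _ D.dist _ h
  obtain ⟨c, rfl⟩ := D.lam_bij.2 g
  exact ⟨c, D.lam_bij.1 (by rw [hg, D.lam_mul])⟩

/-! ### the adjoint of `β` -/

/-- the adjoint of `β` -/
noncomputable def bd : D.E⟦(-1 : ℤ)⟧ ⟶ D.E := dn D.beta

@[reassoc] theorem bd_lam (a : AA) : D.bd ≫ D.lam a = (D.lam a)⟦(-1 : ℤ)⟧' ≫ D.bd := by
  rw [bd, ← dn_comp, ← comp_dn, D.beta_comm]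

theorem hom_bd (f : D.E⟦(-1 : ℤ)⟧ ⟶ D.E) : ∃ a, f = D.bd ≫ D.lam a := by
  obtain ⟨g, rfl⟩ := dn_surjective f
  obtain ⟨a, rfl⟩ := D.beta_bij.2 g
  exact ⟨a, by rw [bd_lam, bd, ← comp_dn]⟩

theorem bd_lam_injective {a b : AA} (h : D.bd ≫ D.lam a = D.bd ≫ D.lam b) : a = b := by
  rw [bd_lam, bd_lam, bd, ← comp_dn, ← comp_dn] at h
  exact D.beta_bij.1 (dn_injective h)

theorem hom_neg_A (f : D.E⟦(-1 : ℤ)⟧ ⟶ D.A) : ∃ a, f = D.bd ≫ D.inn ≫ D.act a := by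
  obtain ⟨g, rfl⟩ : ∃ g : D.E⟦(-1 : ℤ)⟧ ⟶ D.E, f = g ≫ D.inn :=
    Triangle.coyoneda_exact₃ _ D.dist f ((D.hz' (-1) 1 (by omega) (by omega) (by omega) (by omega) :) _)
  obtain ⟨a, rfl⟩ := D.hom_bd g
  exact ⟨a, by rw [D.inn_act, Category.assoc]⟩

/-- `Hom(E⟦j⟧, A) = 0` unless `j = 0, -1` modulo `q` -/
theorem hz_A {j : ℤ} (h0 : ¬ D.q ∣ j) (h1 : ¬ D.q ∣ j + 1) : HZ (D.E⟦j⟧) D.A := by
  by_cases h : D.q ∣ j - 1
  · exact D.hz_one_A.iso (D.per_dvd h).some.symm (Iso.refl _)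
  · intro f
    obtain ⟨g, rfl⟩ : ∃ g : D.E⟦j⟧ ⟶ D.E, f = g ≫ D.inn :=
      Triangle.coyoneda_exact₃ _ D.dist f (D.hz j 1 (by rwa [← dvd_neg, neg_sub])
        (by rwa [← dvd_neg, show -(1 - j - 1) = j by ring]) _)
    rw [(D.hz j 0 (by rwa [← dvd_neg, show -(0 - j) = j by ring])
      (by rwa [← dvd_neg, show -(0 - j - 1) = j + 1 by ring])).iso (Iso.refl _) (shZero _) g,
      zero_comp]

/-! ### the fibre `P'` of `T` on `E⟦-1⟧` -/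

theorem exists_fib : ∃ (X : C) (f : X ⟶ D.E⟦(-1 : ℤ)⟧) (h : D.E⟦(-1 : ℤ)⟧ ⟶ X⟦(1 : ℤ)⟧),
    Triangle.mk f ((D.lam D.T)⟦(-1 : ℤ)⟧') h ∈ distTriang C :=
  distinguished_cocone_triangle₁ _

/-- the fibre of `T` on `E⟦-1⟧` -/
noncomputable def P' : C := D.exists_fib.choose

/-- the projection -/
noncomputable def pr : D.P' ⟶ D.E⟦(-1 : ℤ)⟧ := D.exists_fib.choose_spec.choose

/-- the boundary map -/
noncomputable def cb : D.E⟦(-1 : ℤ)⟧ ⟶ D.P'⟦(1 : ℤ)⟧ :=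
  D.exists_fib.choose_spec.choose_spec.choose

theorem dist' : Triangle.mk D.pr ((D.lam D.T)⟦(-1 : ℤ)⟧') D.cb ∈ distTriang C :=
  D.exists_fib.choose_spec.choose_spec.choose_spec

theorem pr_T : D.pr ≫ (D.lam D.T)⟦(-1 : ℤ)⟧' = 0 := comp_distTriang_mor_zero₁₂ _ D.dist'

/-- maps out of `P'` -/
theorem from_P' {X : C} (f : D.P' ⟶ X)
    (h : ∀ g : D.E⟦(-1 : ℤ)⟧⟦(-1 : ℤ)⟧ ⟶ X, (D.lam D.T)⟦(-1 : ℤ)⟧'⟦(-1 : ℤ)⟧' ≫ g = 0 → g = 0) :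
    ∃ g : D.E⟦(-1 : ℤ)⟧ ⟶ X, f = D.pr ≫ g := by
  refine Triangle.yoneda_exact₂ _ (inv_rot_of_distTriang _ D.dist') f (h _ ?_)
  have h2 : (D.lam D.T)⟦(-1 : ℤ)⟧' ≫ D.cb = 0 := comp_distTriang_mor_zero₂₃ _ D.dist'
  change _ ≫ (-dn D.cb) ≫ f = 0
  rw [← Category.assoc, Preadditive.comp_neg, ← comp_dn, h2, dn_zero, neg_zero, zero_comp]

theorem reg2 (g : D.E⟦(-1 : ℤ)⟧⟦(-1 : ℤ)⟧ ⟶ D.E⟦(-1 : ℤ)⟧⟦(-1 : ℤ)⟧)
    (h : (D.lam D.T)⟦(-1 : ℤ)⟧'⟦(-1 : ℤ)⟧' ≫ g = 0) : g = 0 := by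
  obtain ⟨g, rfl⟩ := (shiftFunctor C (-1 : ℤ)).map_surjective g
  obtain ⟨g, rfl⟩ := (shiftFunctor C (-1 : ℤ)).map_surjective g
  rw [← Functor.map_comp, ← Functor.map_comp, Functor.map_eq_zero_iff,
    Functor.map_eq_zero_iff] at h
  rw [D.reg0' g h, Functor.map_zero, Functor.map_zero]

theorem reg3 (g : D.E⟦(-1 : ℤ)⟧⟦(-1 : ℤ)⟧ ⟶ D.E⟦(-1 : ℤ)⟧)
    (h : (D.lam D.T)⟦(-1 : ℤ)⟧'⟦(-1 : ℤ)⟧' ≫ g = 0) : g = 0 := by
  obtain ⟨g, rfl⟩ := (shiftFunctor C (-1 : ℤ)).map_surjective g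
  obtain ⟨g, rfl⟩ := dn_surjective g
  rw [← Functor.map_comp, Functor.map_eq_zero_iff, ← comp_dn, ← dn_zero] at h
  rw [D.reg1' g (dn_injective h), dn_zero, Functor.map_zero]

/-- `E⟦-1⟧⟦-1⟧ ≅ E⟦-2⟧` -/
noncomputable def m2 : D.E⟦(-1 : ℤ)⟧⟦(-1 : ℤ)⟧ ≅ D.E⟦(-2 : ℤ)⟧ := shAdd _ _ _ _ (by norm_num)

theorem hz_P'_m2 : HZ D.P' (D.E⟦(-1 : ℤ)⟧⟦(-1 : ℤ)⟧) := fun f => by
  obtain ⟨g, rfl⟩ := D.from_P' f D.reg2
  rw [(D.hz' (-1) (-2) (by omega) (by omega) (by omega) (by omega)).iso (Iso.refl _) D.m2.symm g, comp_zero]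

/-- `Hom(P', E⟦j⟧) = 0` unless `j = 0, -1` modulo `q` -/
theorem hz_P' {j : ℤ} (h0 : ¬ D.q ∣ j) (h1 : ¬ D.q ∣ j + 1) : HZ D.P' (D.E⟦j⟧) := by
  by_cases h : D.q ∣ -2 - j
  · exact D.hz_P'_m2.iso (Iso.refl _) (D.m2 ≪≫ (D.per_dvd h).some)
  · intro f
    obtain ⟨g, rfl⟩ := D.from_P' f fun g _ => (D.hz (-2) j (by rwa [← dvd_neg, neg_sub])
      (by rwa [show j - -2 - 1 = j + 1 by ring])).iso D.m2.symm (Iso.refl _) g
    rw [D.hz (-1) j (by rwa [show j - -1 = j + 1 by ring])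
      (by rwa [show j - -1 - 1 = j by ring]) g, comp_zero]

theorem hz_P'' (j : ℤ) (h0 : j ≠ 0) (h1 : j + 1 ≠ 0)
    (h2 : -5 < j) (h3 : j < 4) : HZ D.P' (D.E⟦j⟧) :=
  D.hz_P' (D.not_dvd h0 h2 (by omega)) (D.not_dvd h1 (by omega) (by omega))

theorem ext_pr {f g : D.P' ⟶ D.P'} (h : f ≫ D.pr = g ≫ D.pr) : f = g := by
  obtain ⟨k, hk⟩ : ∃ k : D.P' ⟶ D.E⟦(-1 : ℤ)⟧⟦(-1 : ℤ)⟧, f - g = k ≫ (-dn D.cb) :=
    Triangle.coyoneda_exact₂ _ (inv_rot_of_distTriang _ D.dist') (f - g) (by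
      change (f - g) ≫ D.pr = 0
      rw [Preadditive.sub_comp, h, sub_self])
  rw [← sub_eq_zero, hk, D.hz_P'_m2 k, zero_comp]

theorem exists_act' (a : AA) :
    ∃ c : D.P' ⟶ D.P', c ≫ D.pr = D.pr ≫ (D.lam a)⟦(-1 : ℤ)⟧' :=
  (Triangle.coyoneda_exact₂ _ D.dist' (D.pr ≫ (D.lam a)⟦(-1 : ℤ)⟧') (by
    change (D.pr ≫ (D.lam a)⟦(-1 : ℤ)⟧') ≫ (D.lam D.T)⟦(-1 : ℤ)⟧' = 0
    rw [Category.assoc, ← Functor.map_comp, ← D.lam_mul, D.T_comm, D.lam_mul, Functor.map_comp,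
      ← Category.assoc, D.pr_T, zero_comp])).imp fun _ h => h.symm

/-- the action of `AA` on `P'` -/
noncomputable def act' (a : AA) : D.P' ⟶ D.P' := (D.exists_act' a).choose

@[reassoc] theorem act'_pr (a : AA) : D.act' a ≫ D.pr = D.pr ≫ (D.lam a)⟦(-1 : ℤ)⟧' :=
  (D.exists_act' a).choose_spec

theorem act'_one : D.act' 1 = 𝟙 _ := D.ext_pr (by simp [D.act'_pr, D.lam_one])

theorem act'_mul (a b : AA) : D.act' (a * b) = D.act' b ≫ D.act' a :=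
  D.ext_pr (by simp [D.act'_pr, D.act'_pr_assoc, D.lam_mul])

theorem act'_add (a b : AA) : D.act' (a + b) = D.act' a + D.act' b :=
  D.ext_pr (by simp [D.act'_pr, D.lam_add])

theorem act'_sub (a b : AA) : D.act' (a - b) = D.act' a - D.act' b :=
  D.ext_pr (by simp [D.act'_pr, D.lam_sub])

theorem act'_sum {κ : Type*} (s : Finset κ) (a : κ → AA) :
    D.act' (∑ k ∈ s, a k) = ∑ k ∈ s, D.act' (a k) :=
  map_sum (AddMonoidHom.mk' D.act' D.act'_add) a s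

theorem act'_T_mul (a : AA) : D.act' (D.T * a) = 0 :=
  D.ext_pr (by
    rw [D.act'_pr, D.T_comm, D.lam_mul, Functor.map_comp, ← Category.assoc, D.pr_T, zero_comp,
      zero_comp])

theorem hom_P'_neg (f : D.P' ⟶ D.E⟦(-1 : ℤ)⟧) : ∃ a, f = D.act' a ≫ D.pr := by
  obtain ⟨g, rfl⟩ := D.from_P' f D.reg3
  obtain ⟨g, rfl⟩ := (shiftFunctor C (-1 : ℤ)).map_surjective g
  obtain ⟨a, rfl⟩ := D.lam_bij.2 g
  exact ⟨a, (D.act'_pr a).symm⟩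

theorem hom_P'_E (f : D.P' ⟶ D.E) : ∃ a, f = D.act' a ≫ D.pr ≫ D.bd := by
  obtain ⟨g, rfl⟩ := D.from_P' f fun g _ => (D.hz' (-2) 0 (by omega) (by omega) (by omega) (by omega)).iso D.m2.symm (shZero _) g
  obtain ⟨a, rfl⟩ := D.hom_bd g
  exact ⟨a, by rw [D.act'_pr_assoc, D.bd_lam]⟩

/-- the generator of `Hom(P', A)` -/
noncomputable def gen : D.P' ⟶ D.A := D.pr ≫ D.bd ≫ D.inn

@[reassoc] theorem act'_gen (a : AA) : D.act' a ≫ D.gen = D.gen ≫ D.act a := by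
  simp only [gen, Category.assoc, D.act'_pr_assoc, D.inn_act, D.bd_lam_assoc]

theorem hom_gen (f : D.P' ⟶ D.A) : ∃ a, f = D.gen ≫ D.act a := by
  obtain ⟨g, rfl⟩ : ∃ g : D.P' ⟶ D.E, f = g ≫ D.inn :=
    Triangle.coyoneda_exact₃ _ D.dist f ((D.hz_P'' 1 (by omega) (by omega) (by omega) (by omega) :) _)
  obtain ⟨a, rfl⟩ := D.hom_P'_E g
  exact ⟨a, by rw [← act'_gen, gen, Category.assoc, Category.assoc]⟩

theorem gen_act_eq_zero {a : AA} (h : D.gen ≫ D.act a = 0) : ∃ c, a = D.T * c := by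
  have h1 : (D.pr ≫ D.bd ≫ D.lam a) ≫ D.inn = 0 := by
    simpa only [gen, Category.assoc, D.inn_act] using h
  obtain ⟨g, hg⟩ : ∃ g : D.P' ⟶ D.E, D.pr ≫ D.bd ≫ D.lam a = g ≫ D.lam D.T :=
    Triangle.coyoneda_exact₂ _ D.dist _ h1
  obtain ⟨b, rfl⟩ := D.hom_P'_E g
  rw [Category.assoc, Category.assoc, D.bd_lam D.T, ← Category.assoc D.pr _ D.bd, D.pr_T,
    zero_comp, comp_zero] at hg
  obtain ⟨k, hk⟩ : ∃ k : D.E⟦(-1 : ℤ)⟧ ⟶ D.E, D.bd ≫ D.lam a = (D.lam D.T)⟦(-1 : ℤ)⟧' ≫ k :=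
    Triangle.yoneda_exact₂ _ D.dist' _ hg
  obtain ⟨c, rfl⟩ := D.hom_bd k
  rw [← D.bd_lam_assoc, ← D.lam_mul, ← D.T_comm] at hk
  exact ⟨c, D.bd_lam_injective hk⟩

theorem hz_P'_A_one : HZ D.P' (D.A⟦(1 : ℤ)⟧) := fun f => by
  obtain ⟨g, rfl⟩ : ∃ g : D.P' ⟶ D.E⟦(1 : ℤ)⟧, f = g ≫ (-D.inn⟦(1 : ℤ)⟧') :=
    Triangle.coyoneda_exact₁ _ (rot_of_distTriang _ (rot_of_distTriang _ D.dist)) f
      ((D.hz_P'' 2 (by omega) (by omega) (by omega) (by omega)).iso (Iso.refl _) (shAdd D.E 1 1 2 rfl).symm _)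
  rw [(D.hz_P'' 1 (by omega) (by omega) (by omega) (by omega) :) g, zero_comp]

end EnD

end Vale.Agent.P221X.NM
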