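import Vale.Agent.P221X.NM.TopA

/-!
# P221, non-membership: the data `TriData` from `EnD` and a trace with dual bases
-/

open CategoryTheory Limits Pretriangulated MulOpposite

set_option linter.unusedSectionVars false

universe v u w

namespace Vale.Agent.P221X.NM

variable {C : Type u} [Category.{v} C] [Preadditive C] [HasShift C ℤ] [HasZeroObject C]
  [∀ n : ℤ, (shiftFunctor C n).Additive] [Pretriangulated C]

section Bases

variable {Γ : Type w} [Ring Γ]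

/-- `Hom(Z, P)` is torsion free -/
def TF (D : TriData C Γ) (Z : C) : Prop :=
  ∀ a, a ≠ 0 → ∀ x : Z ⟶ D.P, x ≫ D.lam a = 0 → x = 0

theorem TF.iso {D : TriData C Γ} {Z Z' : C} (h : TF D Z) (e : Z ≅ Z') : TF D Z' :=
  fun a ha x hx => by
    rw [← cancel_epi e.hom, h a ha (e.hom ≫ x) (by rw [Category.assoc, hx, comp_zero]), comp_zero]

theorem TF.shift {D : TriData C Γ} {Z : C} (h : TF D Z) (n : ℤ) : TF (D.shift n) (Z⟦n⟧) :=
  fun a ha x hx => by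
    obtain ⟨y, rfl⟩ := (shiftFunctor C n).map_surjective (x : Z⟦n⟧ ⟶ D.P⟦n⟧)
    have h1 : (y ≫ D.lam a)⟦n⟧' = 0 := by rw [Functor.map_comp]; exact hx
    rw [h a ha y ((shiftFunctor C n).map_eq_zero_iff.1 h1)]
    exact Functor.map_zero _ _ _

theorem TF.tf1 {D : TriData C Γ} {Z : C} (h : TF D (Z⟦(-1 : ℤ)⟧)) (a : Γ) (ha : a ≠ 0)
    (x : Z ⟶ D.P⟦(1 : ℤ)⟧) (hx : x ≫ (D.lam a)⟦(1 : ℤ)⟧' = 0) : x = 0 :=
  dn_injective (by rw [dn_zero]; exact h a ha _ (by rw [← dn_comp, hx, dn_zero]))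

/-- dual bases of `Hom(Z, P)` and `Hom(P', Z)` -/
def Bases (D : TriData C Γ) (Z : C) : Prop :=
  ∃ (κ : Type) (_ : Fintype κ) (_ : DecidableEq κ) (ι : κ → (Z ⟶ D.P)) (δ : κ → (D.P' ⟶ Z)),
    (∀ j l, D.eps (δ j ≫ ι l) = if j = l then 1 else 0) ∧
    (∀ f : Z ⟶ D.P, ∃ γ : κ → Γ, f = ∑ j, ι j ≫ D.lam (γ j)) ∧
    ∀ h : D.P' ⟶ Z, ∃ γ : κ → Γ, h = ∑ j, D.lam' (γ j) ≫ δ j

theorem Bases.of_hz {D : TriData C Γ} {Z : C} (h : HZ Z D.P) (h' : HZ D.P' Z) : Bases D Z :=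
  ⟨Empty, inferInstance, inferInstance, Empty.elim, Empty.elim, fun j => j.elim,
    fun f => ⟨Empty.elim, by simp [h f]⟩, fun f => ⟨Empty.elim, by simp [h' f]⟩⟩

theorem Bases.iso {D : TriData C Γ} {Z Z' : C} (h : Bases D Z) (e : Z ≅ Z') : Bases D Z' := by
  obtain ⟨κ, _, _, ι, δ, h1, h2, h3⟩ := h
  refine ⟨κ, inferInstance, inferInstance, fun j => e.inv ≫ ι j, fun j => δ j ≫ e.hom,
    fun j l => by simpa using h1 j l, fun f => ?_, fun f => ?_⟩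
  · obtain ⟨γ, hγ⟩ := h2 (e.hom ≫ f)
    refine ⟨γ, ?_⟩
    simp only [Category.assoc, ← Preadditive.comp_sum, ← hγ, Iso.inv_hom_id_assoc]
  · obtain ⟨γ, hγ⟩ := h3 (f ≫ e.inv)
    refine ⟨γ, ?_⟩
    simp only [← Category.assoc, ← Preadditive.sum_comp, ← hγ]
    simp

theorem Bases.shift {D : TriData C Γ} {Z : C} (h : Bases D Z) (n : ℤ) :
    Bases (D.shift n) (Z⟦n⟧) := by
  obtain ⟨κ, _, _, ι, δ, h1, h2, h3⟩ := h
  refine ⟨κ, inferInstance, inferInstance, fun j => (ι j)⟦n⟧', fun j => (δ j)⟦n⟧',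
    fun j l => ?_, fun f => ?_, fun f => ?_⟩
  · rw [← h1 j l, ← D.shift_eps n, Functor.map_comp]
    rfl
  · obtain ⟨y, rfl⟩ := (shiftFunctor C n).map_surjective (f : Z⟦n⟧ ⟶ D.P⟦n⟧)
    obtain ⟨γ, rfl⟩ := h2 y
    refine ⟨γ, ?_⟩
    simp only [Functor.map_sum, Functor.map_comp]
    rfl
  · obtain ⟨y, rfl⟩ := (shiftFunctor C n).map_surjective (f : D.P'⟦n⟧ ⟶ Z⟦n⟧)
    obtain ⟨γ, rfl⟩ := h3 y
    refine ⟨γ, ?_⟩
    simp only [Functor.map_sum, Functor.map_comp]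
    rfl

theorem Bases.good [NoZeroDivisors Γ] (O : OreData Γ) {D : TriData C Γ} {Z : C} (h : Bases D Z)
    (h' : TF D (Z⟦(-1 : ℤ)⟧)) : GoodCell O D Z := by
  obtain ⟨κ, _, _, ι, δ, h1, h2, h3⟩ := h
  exact goodCell_of_bases ι δ h1 h2 h3 h'.tf1

end Bases

/-- A subring `Rf` of `AA` with a trace and dual bases, and the quotient `R = Rf / T`. -/
structure TrD (R Rf AA : Type w) [Ring R] [Ring Rf] [Ring AA] (T : AA) where
  j : Rf →+* AA
  pi : Rf →+* R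
  pi_surj : Function.Surjective pi
  T₀ : Rf
  j_T₀ : j T₀ = T
  pi_ker : ∀ a, pi a = 0 ↔ ∃ c, a = T₀ * c
  tr : AA →+ Rf
  tr_left : ∀ a x, tr (j a * x) = a * tr x
  tr_right : ∀ a x, tr (x * j a) = tr x * a
  κ : Type
  [fin : Fintype κ]
  [dec : DecidableEq κ]
  b : κ → AA
  b' : κ → AA
  dual : ∀ k l, tr (b' k * b l) = if k = l then 1 else 0
  exp_left : ∀ x, x = ∑ k, j (tr (x * b k)) * b' k
  exp_right : ∀ x, x = ∑ k, b k * j (tr (b' k * x))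

attribute [instance] TrD.fin TrD.dec

namespace TrD

variable {R Rf AA : Type w} [Ring R] [Ring Rf] [Ring AA]

section

variable {T : AA} (τ : TrD R Rf AA T)

/-- a section of the quotient map -/
noncomputable def sec (r : R) : Rf := (τ.pi_surj r).choose

theorem pi_sec (r : R) : τ.pi (τ.sec r) = r := (τ.pi_surj r).choose_spec

theorem j_sub {a b : Rf} (h : τ.pi a = τ.pi b) : ∃ c, τ.j a - τ.j b = T * c := by
  obtain ⟨c, hc⟩ := (τ.pi_ker (a - b)).1 (by rw [map_sub, h, sub_self])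
  exact ⟨τ.j c, by rw [← map_sub, hc, map_mul, τ.j_T₀]⟩

theorem pi_tr_T (c : AA) : τ.pi (τ.tr (T * c)) = 0 :=
  (τ.pi_ker _).2 ⟨τ.tr c, by rw [← τ.tr_left, τ.j_T₀]⟩

/-- `AA / T` is torsion free over `R` -/
theorem tf [NoZeroDivisors R] {a : Rf} (ha : τ.pi a ≠ 0) {x c : AA} (h : τ.j a * x = T * c) :
    ∃ c', x = T * c' := by
  have h1 : ∀ k, ∃ d, τ.tr (x * τ.b k) = τ.T₀ * d := fun k => by
    have h2 := τ.pi_tr_T (c * τ.b k)
    rw [← mul_assoc, ← h, mul_assoc, τ.tr_left, map_mul] at h2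
    exact (τ.pi_ker _).1 ((mul_eq_zero.1 h2).resolve_left ha)
  choose d hd using h1
  refine ⟨∑ k, τ.j (d k) * τ.b' k, (τ.exp_left x).trans ?_⟩
  simp only [hd, map_mul, τ.j_T₀, Finset.mul_sum, mul_assoc]

end

variable {D : EnD C AA} (τ : TrD R Rf AA D.T)

theorem act_congr {a b : Rf} (h : τ.pi a = τ.pi b) : D.act (τ.j a) = D.act (τ.j b) := by
  obtain ⟨c, hc⟩ := τ.j_sub h
  rw [← sub_eq_zero, ← D.act_sub, hc, D.act_T_mul]

theorem act'_congr {a b : Rf} (h : τ.pi a = τ.pi b) : D.act' (τ.j a) = D.act' (τ.j b) := by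
  obtain ⟨c, hc⟩ := τ.j_sub h
  rw [← sub_eq_zero, ← D.act'_sub, hc, D.act'_T_mul]

theorem eps_aux (a : AA) :
    τ.pi (τ.tr (D.hom_gen (D.gen ≫ D.act a)).choose) = τ.pi (τ.tr a) := by
  obtain ⟨c, hc⟩ := D.gen_act_eq_zero (a := (D.hom_gen (D.gen ≫ D.act a)).choose - a) (by
    rw [D.act_sub, Preadditive.comp_sub, ← (D.hom_gen (D.gen ≫ D.act a)).choose_spec, sub_self])
  rw [← sub_eq_zero, ← map_sub, ← map_sub, hc, τ.pi_tr_T]

/-- the action of `R` on `A` -/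
noncomputable def lamR (r : R) : D.A ⟶ D.A := D.act (τ.j (τ.sec r))

/-- the action of `R` on `P'` -/
noncomputable def lamR' (r : R) : D.P' ⟶ D.P' := D.act' (τ.j (τ.sec r))

/-- the trace on `Hom(P', A) = AA / T` -/
noncomputable def epsR : (D.P' ⟶ D.A) →+ R :=
  AddMonoidHom.mk' (fun y => τ.pi (τ.tr (D.hom_gen y).choose)) fun x y => by
    obtain ⟨a, rfl⟩ := D.hom_gen x
    obtain ⟨b, rfl⟩ := D.hom_gen y
    rw [← Preadditive.comp_add, ← D.act_add, eps_aux, eps_aux, eps_aux, map_add, map_add]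

theorem lamR_pi (a : Rf) : τ.lamR (τ.pi a) = D.act (τ.j a) := τ.act_congr (τ.pi_sec _)

theorem lamR'_pi (a : Rf) : τ.lamR' (τ.pi a) = D.act' (τ.j a) := τ.act'_congr (τ.pi_sec _)

theorem epsR_gen (a : AA) : τ.epsR (D.gen ≫ D.act a) = τ.pi (τ.tr a) := τ.eps_aux a

/-- The data `P = A`, `P' = fib (T on E⟦-1⟧)`, `eps = tr`. -/
@[reducible] noncomputable def tri : TriData C R where
  P := D.A
  P' := D.P'
  lam := τ.lamR
  lam_mul a b := by
    rw [lamR, lamR, lamR, ← D.act_mul, ← map_mul]; exact τ.act_congr (by simp [pi_sec])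
  lam_zero := by rw [← D.act_zero, ← map_zero τ.j]; exact τ.act_congr (by simp [pi_sec])
  lam' := τ.lamR'
  lam'_one := by rw [← D.act'_one, ← map_one τ.j]; exact τ.act'_congr (by simp [pi_sec])
  lam'_mul a b := by
    rw [lamR', lamR', lamR', ← D.act'_mul, ← map_mul]; exact τ.act'_congr (by simp [pi_sec])
  lam'_add a b := by
    rw [lamR', lamR', lamR', ← D.act'_add, ← map_add]; exact τ.act'_congr (by simp [pi_sec])
  eps := τ.epsR
  eps_left y a := by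
    obtain ⟨b, rfl⟩ := D.hom_gen y
    rw [lamR, Category.assoc, ← D.act_mul, epsR_gen, epsR_gen, τ.tr_left, map_mul, pi_sec]
  eps_right y a := by
    obtain ⟨b, rfl⟩ := D.hom_gen y
    rw [lamR', D.act'_gen_assoc, ← D.act_mul, epsR_gen, epsR_gen, τ.tr_right, map_mul, pi_sec]
  van := D.hz_P'_A_one

theorem act_left (a : AA) :
    D.act a = ∑ k, D.act (τ.b' k) ≫ τ.lamR (τ.pi (τ.tr (a * τ.b k))) := by
  simp only [lamR_pi, ← D.act_mul, ← D.act_sum, ← τ.exp_left]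

theorem act'_right (a : AA) :
    D.act' a = ∑ k, τ.lamR' (τ.pi (τ.tr (τ.b' k * a))) ≫ D.act' (τ.b k) := by
  simp only [lamR'_pi, ← D.act'_mul, ← D.act'_sum, ← τ.exp_right]

theorem bases_of {Z : C} (ι : Z ⟶ D.A) (δ : D.P' ⟶ Z) (h : δ ≫ ι = D.gen)
    (h1 : ∀ f : Z ⟶ D.A, ∃ a, f = ι ≫ D.act a) (h2 : ∀ f : D.P' ⟶ Z, ∃ a, f = D.act' a ≫ δ) :
    Bases τ.tri Z := by
  refine ⟨τ.κ, inferInstance, inferInstance, fun k => ι ≫ D.act (τ.b' k),
    fun k => D.act' (τ.b k) ≫ δ, fun k l => ?_, fun f => ?_, fun f => ?_⟩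
  · have : (D.act' (τ.b k) ≫ δ) ≫ ι ≫ D.act (τ.b' l) = D.gen ≫ D.act (τ.b' l * τ.b k) := by
      rw [Category.assoc, ← Category.assoc δ, h, D.act'_gen_assoc, D.act_mul]
    refine (congrArg τ.epsR this).trans ?_
    rw [epsR_gen, τ.dual]
    by_cases hkl : k = l
    · simp [hkl]
    · simp [hkl, Ne.symm hkl]
  · obtain ⟨a, rfl⟩ := h1 f
    refine ⟨fun k => τ.pi (τ.tr (a * τ.b k)), ?_⟩
    rw [τ.act_left a]
    exact (Preadditive.comp_sum _ _ _).trans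
      (Finset.sum_congr rfl fun k _ => (Category.assoc _ _ _).symm)
  · obtain ⟨a, rfl⟩ := h2 f
    refine ⟨fun k => τ.pi (τ.tr (τ.b' k * a)), ?_⟩
    rw [τ.act'_right a]
    exact (Preadditive.sum_comp _ _ _).trans
      (Finset.sum_congr rfl fun k _ => Category.assoc _ _ _)

theorem bases (j : ℤ) : Bases τ.tri (D.E⟦j⟧) := by
  by_cases h0 : D.q ∣ j
  · exact (τ.bases_of D.inn (D.pr ≫ D.bd) (Category.assoc _ _ _) D.hom_E_A D.hom_P'_E).iso
      ((shZero _).symm ≪≫ (D.per_dvd (by rwa [sub_zero])).some.symm)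
  by_cases h1 : D.q ∣ j + 1
  · exact (τ.bases_of (D.bd ≫ D.inn) D.pr rfl
      (fun f => (D.hom_neg_A f).imp fun _ h => h.trans (Category.assoc _ _ _).symm)
      D.hom_P'_neg).iso (D.per_dvd (by rwa [sub_neg_eq_add])).some.symm
  exact .of_hz (D.hz_A h0 h1) (D.hz_P' h0 h1)

variable [NoZeroDivisors R]

theorem tf_of {Z : C} (ι : Z ⟶ D.A) (h1 : ∀ f : Z ⟶ D.A, ∃ a, f = ι ≫ D.act a)
    (h2 : ∀ a, ι ≫ D.act a = 0 → ∃ c, a = D.T * c) : TF τ.tri Z := fun r hr x hx => by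
  obtain ⟨a, rfl⟩ := h1 x
  obtain ⟨r, rfl⟩ := τ.pi_surj r
  obtain ⟨c, hc⟩ := h2 (τ.j r * a) (by
    rw [D.act_mul, ← τ.lamR_pi, ← Category.assoc]; exact hx)
  obtain ⟨c', rfl⟩ := τ.tf hr hc
  rw [D.act_T_mul]
  exact comp_zero

theorem tf_shift (j : ℤ) : TF τ.tri (D.E⟦j⟧) := by
  by_cases h0 : D.q ∣ j
  · exact (τ.tf_of D.inn D.hom_E_A fun _ => D.inn_act_eq_zero).iso
      ((shZero _).symm ≪≫ (D.per_dvd (by rwa [sub_zero])).some.symm)
  by_cases h1 : D.q ∣ j + 1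
  · exact (τ.tf_of (D.bd ≫ D.inn)
      (fun f => (D.hom_neg_A f).imp fun _ h => h.trans (Category.assoc _ _ _).symm)
      fun a ha => D.gen_act_eq_zero (by
        rw [EnD.gen, Category.assoc, ha, comp_zero])).iso
      (D.per_dvd (by rwa [sub_neg_eq_add])).some.symm
  exact fun _ _ x _ => D.hz_A h0 h1 x

/-- All shifts of `E` are good cells for all shifts of the data. -/
theorem good (O : OreData R) (n k : ℤ) : GoodCell O (τ.tri.shift n) (D.E⟦k⟧) :=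
  (((τ.bases (k - n)).shift n).iso (shAdd _ _ _ _ (sub_add_cancel k n))).good O
    (((τ.tf_shift (k - 1 - n)).shift n).iso (shAdd _ _ _ _ (sub_add_cancel (k - 1) n) ≪≫
      (shAdd _ _ _ _ (by ring)).symm))

end TrD

end Vale.Agent.P221X.NM
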